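import Vale.Agent.P150.Weak.Resp.RowR

/-!
The Frobenius error of linear response is bounded in mean square.
-/

open MeasureTheory ProbabilityTheory Finset Real

namespace Vale.Agent.P150.Weak.Resp

open Gap Rec

variable {m : ℕ} {b : ℝ} {n : ℕ} {τ : ℝ}

attribute [local irreducible] cm2 cm3 cm4 mg vv gradV

/-- The inputs are crudely of order `n²`. -/
lemma inputs_crude (hG : GrowSpec b) (hC : CrudeSpec b) :
    ∃ C : ℝ, 0 ≤ C ∧ ∀ n m : ℕ, ∀ τ : ℝ, 0 ≤ τ → 0 < n → m ≤ n →
      Inputs b n m τ (C * (n:ℝ) ^ 2) := by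
  obtain ⟨Cc, hc⟩ := hC 2
  obtain ⟨Cv, hv⟩ := gradV_crude hG hC (p := 2) one_le_two
  set E := exp (2 * b ^ 2)
  refine ⟨E * (√|Cc| + √|Cv|), by positivity, fun n m τ hτ hn hmn s hs => ?_⟩
  obtain ⟨c1, -, c3, -⟩ := hc n m (τ + b ^ 2 / n) (by positivity) hn hmn
  have hn2 : (0:ℝ) ≤ (n:ℝ) ^ 2 := by positivity
  have hle : ∀ {K0 : ℝ}, K0 ≤ √|Cc| + √|Cv| → E * K0 * (n:ℝ) ^ 2 ≤
      E * (√|Cc| + √|Cv|) * (n:ℝ) ^ 2 := fun h => by gcongr
  refine ⟨?_, ?_, ?_⟩
  · exact (shEv_crude_le (Bd.sum fun a => Bd.sum fun c => Bd.sum fun d => Bd.sum fun e =>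
      (bd_cm4 a c d e).pow 2) hτ hmn hn2 c1 s hs).trans
      (hle (le_add_of_nonneg_right (sqrt_nonneg _)))
  · exact (shEv_crude_le (Bd.sum fun a => Bd.sum fun c => (bd_gradV a c).pow 2) hτ hmn hn2
      (hv n m (τ + b ^ 2 / n) (by positivity) hn hmn) s hs).trans
      (hle (le_add_of_nonneg_left (sqrt_nonneg _)))
  · exact (shEv_crude_le (Bd.sum fun a => Bd.sum fun c => (Bd.sum fun k =>
      (Bd.const 1).mul (bd_cm3 k a c)).pow 2) hτ hmn hn2 c3 s hs).trans
      (hle (le_add_of_nonneg_right (sqrt_nonneg _)))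

lemma ts_chaosRow (v τ : ℝ) (i : Fin (m + 1)) (a : Fin m) :
    TS v τ fun J u => chaosRow v J u i (i.succAbove a) := by
  have h3 : ∀ c e, TS v τ fun J u => kbar v i J u a c e := fun c e =>
    TS.of_bd (bd_kbar v i a c e) v τ
  have hξ : ∀ c, Tame fun g : Idx (m + 1) → ℝ => rowOf i (plJ v g) c - v := fun c =>
    (ts_rowOf v τ i c).sub (Tame.const v)
  have h := (Tame.sum (s := univ) fun c _ => Tame.sum (s := univ)
      fun e _ => (h3 c e).mul ((hξ c).mul (hξ e))).sub
      ((Tame.const v).mul (Tame.sum (s := univ) fun c _ => h3 c c))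
  simpa [TS, chaosRow] using! h

lemma kK_sq_le (v : ℝ) (G : Mat m) (h : Vec m) :
    ∑ a, ∑ c, ∑ e, kK v G h a c e ^ 2 ≤
      ∫ r, ∑ a, ∑ c, ∑ e, hs v (fun J u => cm3 J u a c e) G h r ^ 2 ∂gauss (Fin m) := by
  have t : ∀ a c e, Tame fun r => hs v (fun J u => cm3 J u a c e) G h r ^ 2 := fun a c e =>
    (tame_hs (bd_cm3 a c e)).pow 2
  rw [integral_finsetSum _ fun a _ =>
    (Tame.sum fun c _ => Tame.sum fun e _ => t a c e).integrable]
  refine sum_le_sum fun a _ => ?_
  rw [integral_finsetSum _ fun c _ => (Tame.sum fun e _ => t a c e).integrable]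
  refine sum_le_sum fun c _ => ?_
  rw [integral_finsetSum _ fun e _ => (t a c e).integrable]
  refine sum_le_sum fun e _ => ?_
  have := sq_integral_le (tame_hs (v := v) (G := G) (h := h) (bd_cm3 a c e)).integrable
    (t a c e).integrable
  simpa [kK] using this

/-- A chaos row in mean square. -/
lemma chaos_row_le (i : Fin (m + 1)) :
    pEv b n (m + 1) τ (fun J u => ∑ a, chaosRow (b ^ 2 / n) J u i (i.succAbove a) ^ 2) ≤
      4 * (b ^ 2 / n) ^ 2 * pEv b n (m + 1) τ
        (fun J u => ∑ a, ∑ c, ∑ e, bar i (fun J u => cm3 J u a c e) J u ^ 2) := by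
  set v := b ^ 2 / (n:ℝ) with hv
  have hv0 : 0 ≤ v := by positivity
  have hb : Bd fun J u => ∑ a, ∑ c, ∑ e, bar i (fun J u => cm3 J u a c e) J u ^ 2 :=
    Bd.sum fun a => Bd.sum fun c => Bd.sum fun e => ((bd_cm3 a c e).barI i).pow 2
  set S := fun (g : Idx m → ℝ) (r : Fin m → ℝ) =>
    ∑ a, ∑ c, ∑ e, hs v (fun J u => cm3 J u a c e) (plJ v g) (plU τ g) r ^ 2
  rw [pEv_row hb i (f := S) fun g r t => sum_congr rfl fun a _ => sum_congr rfl fun c _ =>
    sum_congr rfl fun e _ => by rw [← hv, bar_join v τ i g r t]; rfl, ← integral_const_mul]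
  have hSi : Integrable (fun g => ∫ r, S g r ∂gauss (Fin m)) (gauss (Idx m)) := by
    refine (row_integrable hb v τ i).2.congr (ae_of_all _ fun g => ?_)
    refine integral_congr_ae (ae_of_all _ fun r => ?_)
    simp only [S, jn, bar_join]
    rfl
  refine pEv_row_le (F := fun J u => ∑ a, chaosRow (b ^ 2 / n) J u i (i.succAbove a) ^ 2)
    (Tame.sum fun a _ => (ts_chaosRow v τ i a).pow 2)
    (fun J u => sum_nonneg fun a _ => sq_nonneg _) i
    (f := fun g r => v ^ 2 * ∑ a, Gram.chaosV (kK v (plJ v g) (plU τ g)) a r ^ 2)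
    (fun g r t => ?_) (hSi.const_mul _) fun g => ?_
  · rw [← hv, mul_sum]
    refine sum_congr rfl fun a _ => ?_
    simp only [chaosRow, Fin.insertNth_apply_succAbove, kbar_eq_kK, sub_plJ, subU_plU, rowOf_plJ,
      add_sub_cancel_left, Gram.chaosV]
    rw [← mul_pow, mul_sub, mul_sum univ _ v]
    congr 2
    rw [mul_sum]
    refine sum_congr rfl fun c _ => ?_
    rw [mul_sum]
    exact sum_congr rfl fun e _ => by
      linear_combination (kK v (plJ v g) (plU τ g) a c e * (r c * r e)) * mul_self_sqrt hv0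
  · rw [integral_const_mul, mul_comm 4 (v ^ 2), mul_assoc]
    refine mul_le_mul_of_nonneg_left ?_ (sq_nonneg v)
    exact (Gram.chaos_two fun a c e => kK_symm v _ _ a c e).trans
      (mul_le_mul_of_nonneg_left (kK_sq_le v _ _) (by norm_num))

/-- The chaos matrix is bounded in mean square. -/
lemma sum_chaos_le (hG : GrowSpec b) (hC : CrudeSpec b) (hS : SliceSpec b) (hR : RecSpec b)
    (Tm : ℝ) :
    ∃ C : ℝ, ∀ n m : ℕ, ∀ τ : ℝ, 0 ≤ τ → τ ≤ Tm → m + 1 ≤ n →
      ∑ i : Fin (m + 1), pEv b n (m + 1) τ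
        (fun J u => ∑ a, chaosRow (b ^ 2 / n) J u i (i.succAbove a) ^ 2) ≤ C := by
  obtain ⟨CR, hCR⟩ := hR.1 Tm
  obtain ⟨C2, h2⟩ := hS 2 Tm
  obtain ⟨C3, h3⟩ := hS 3 Tm
  obtain ⟨Cd, hd⟩ := delC_pow hG hC (p := 2) one_le_two
  obtain ⟨Ct, ht⟩ := delT_pow hC (p := 1) le_rfl
  set K := 2 * |CR| + 2 * (27 * (|Ct| + √|C2| * √|Cd| + |C3|))
  refine ⟨4 * (b ^ 2) ^ 2 * K, fun n m τ hτ hT hmn => ?_⟩
  have hn : 0 < n := by omega
  have hn0 : (0:ℝ) < n := Nat.cast_pos.2 hn
  have hn1 : (1:ℝ) ≤ n := Nat.one_le_cast.2 hn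
  have hone : ∀ i : Fin (m + 1), pEv b n (m + 1) τ
      (fun J u => ∑ a, chaosRow (b ^ 2 / n) J u i (i.succAbove a) ^ 2) ≤
      4 * (b ^ 2 / n) ^ 2 * (K * n) := by
    intro i
    refine (chaos_row_le i).trans (mul_le_mul_of_nonneg_left ?_ (by positivity))
    have s2 : pEv b n (m + 1) τ (fun J u => sq1 (del i mg J u) ^ 2) ≤ |C2| :=
      ((h2 n m τ hτ hT hmn i).1).trans (le_abs_self _)
    have sT : pEv b n (m + 1) τ (fun J u => sq3 (del i cm3 J u)) ≤ |Ct| * n := by
      refine le_of_eq_of_le (by simp) ((ht n m τ hτ hmn i).trans ?_)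
      rw [pow_one]; exact mul_le_mul_of_nonneg_right (le_abs_self _) hn0.le
    have sC : pEv b n (m + 1) τ (fun J u => sq1 (del i mg J u) * sq2 (del i cm2 J u)) ≤
        √|C2| * √|Cd| * n := by
      refine (pEv_mul_le_of (bd_d i) (bd_delC i) s2 (B := |Cd| * n) ((hd n m τ hτ hmn i).trans ?_)
        ).trans ?_
      · rw [sq_sqrt hn0.le]; exact mul_le_mul_of_nonneg_right (le_abs_self _) hn0.le
      · rw [sqrt_mul (abs_nonneg _), ← mul_assoc]
        exact mul_le_mul_of_nonneg_left (sqrt_nat_le n) (by positivity)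
    have s3 : pEv b n (m + 1) τ (fun J u => sq1 (del i mg J u) ^ 3) ≤ |C3| * n :=
      (((h3 n m τ hτ hT hmn i).1).trans (le_abs_self _)).trans
        (le_mul_of_one_le_right (abs_nonneg _) hn1)
    have hbar := barT_step (b := b) (n := n) (τ := τ) (h := 1) one_pos i sT sC s3
    rw [inv_one] at hbar
    simp only [Fintype.sum_prod_type] at hbar
    refine hbar.trans ?_
    have := (hCR n (m + 1) τ hτ hT hn hmn).1.trans
      (mul_le_mul_of_nonneg_right (le_abs_self CR) hn0.le)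
    simp only [K]
    linarith
  refine (sum_le_sum fun i _ => hone i).trans ?_
  rw [sum_const, card_univ, Fintype.card_fin, nsmul_eq_mul]
  refine (mul_le_mul_of_nonneg_right (Nat.cast_le.2 hmn) (by positivity)).trans_eq ?_
  field_simp

/-- **The error of linear response is of order one in mean square.** -/
theorem residBound (hG : GrowSpec b) (hC : CrudeSpec b) (hO : CenterSpec b) (hS : SliceSpec b)
    (hR : RecSpec b) (Tm : ℝ) :
    ∃ C : ℝ, ∀ n m : ℕ, ∀ τ : ℝ, 0 ≤ τ → τ ≤ Tm → 0 < n → m ≤ n →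
      pEv b n m τ (fun J u => sq2 (resid b n J u)) ≤ C := by
  obtain ⟨C1, h1⟩ := sumR_le hG hC hO hS Tm
  obtain ⟨P, hP0, hP⟩ := inputs_crude hG hC
  obtain ⟨C2, h2⟩ := sum_chaos_le hG hC hS hR Tm
  refine ⟨2 * (|C1| * (1 + P)) + 2 * |C2|, fun n m τ hτ hT hn hmn => ?_⟩
  rcases Nat.eq_zero_or_pos m with rfl | hm
  · simp only [pEv, sq2, univ_eq_empty, sum_empty, integral_zero]
    positivity
  obtain ⟨m, rfl⟩ : ∃ k, m = k + 1 := ⟨m - 1, by omega⟩
  have hn0 : (0:ℝ) < n := Nat.cast_pos.2 hn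
  set v := b ^ 2 / (n:ℝ) with hv
  set R := fun (J : Mat (m + 1)) (u : Vec (m + 1)) =>
    sq2 fun i j => resid b n J u i j + chaosPart b n J u i j
  set Ch := fun (J : Mat (m + 1)) (u : Vec (m + 1)) =>
    ∑ i, ∑ a, chaosRow v J u i (i.succAbove a) ^ 2
  have hpt : ∀ J u, sq2 (resid b n J u) ≤ 2 * R J u + 2 * Ch J u := fun J u => by
    have hch : sq2 (chaosPart b n J u) ≤ Ch J u := by
      refine sum_le_sum fun i _ => ?_
      rw [Fin.sum_univ_succAbove _ i]
      simp only [chaosPart, chaosRow, Fin.insertNth_apply_same, mul_zero, zero_pow two_ne_zero,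
        zero_add]
      refine sum_le_sum fun a _ => ?_
      rw [← hv, mul_pow]
      exact mul_le_of_le_one_left (sq_nonneg _)
        ((sq_le_one_iff_abs_le_one _).2 (abs_mg_le J u i))
    refine le_trans ?_ (add_le_add le_rfl (mul_le_mul_of_nonneg_left hch two_pos.le))
    simp only [R, sq2, mul_sum, ← sum_add_distrib]
    exact sum_le_sum fun i _ => sum_le_sum fun j _ => by
      nlinarith [sq_nonneg (resid b n J u i j + 2 * chaosPart b n J u i j)]
  have tC : ∀ i : Fin (m + 1), TS v τ fun J u => ∑ a, chaosRow v J u i (i.succAbove a) ^ 2 :=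
    fun i => Tame.sum fun a _ => (ts_chaosRow v τ i a).pow 2
  have tR : Integrable (fun g => R (plJ v g) (plU τ g)) (gauss (Idx (m + 1))) := by
    refine Integrable.mono' (integrable_finsetSum univ fun i _ => (ts_rowG v τ i).integrable) ?_
      (ae_of_all _ fun g => ?_)
    · have hplJ := continuous_plJ (m := m + 1) v
      have hplU := continuous_plU (m := m + 1) τ
      have hq : Continuous fun g : Idx (m + 1) → ℝ => (plJ v g, plU τ g) := hplJ.prodMk hplU
      have hw : ∀ i, Continuous fun g : Idx (m + 1) → ℝ => vw (plJ v g) (plU τ g) i := fun i =>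
        continuous_const.sub (((continuous_mg i).comp hq).pow 2)
      have hmg : ∀ i, Continuous fun g : Idx (m + 1) → ℝ => mg (plJ v g) (plU τ g) i := fun i =>
        (continuous_mg i).comp hq
      have hc2 : ∀ i j, Continuous fun g : Idx (m + 1) → ℝ => cm2 (plJ v g) (plU τ g) i j :=
        fun i j => (continuous_cm2 i j).comp hq
      have hres : ∀ i j, Continuous fun g : Idx (m + 1) → ℝ =>
          resid b n (plJ v g) (plU τ g) i j := fun i j => by
        simp only [resid, hA', hA, epsV, sAvg, add_zero]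
        refine (continuous_finsetSum _ fun k _ => Continuous.mul ?_ (hc2 k j)).sub continuous_const
        have hwi : ∀ i, Continuous fun g : Idx (m + 1) → ℝ => 1 / vw (plJ v g) (plU τ g) i :=
          fun i => continuous_const.div₀ (hw i) fun g => (vw_pos _ _ i).ne'
        split_ifs with hik
        · simp only [div_eq_mul_one_div (∑ a, (_ : ℝ)) (vw _ _ _)]
          fun_prop
        · fun_prop
      have hch : ∀ i j, Continuous fun g : Idx (m + 1) → ℝ =>
          chaosPart b n (plJ v g) (plU τ g) i j := fun i j => by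
        simp only [chaosPart]
        refine (hmg i).mul ?_
        rcases Fin.eq_self_or_eq_succAbove i j with rfl | ⟨a, rfl⟩
        · simp only [chaosRow, Fin.insertNth_apply_same]; exact continuous_const
        · exact (ts_chaosRow v τ i a).1
      exact (continuous_finsetSum _ fun i _ => continuous_finsetSum _ fun j _ =>
        ((hres i j).add (hch i j)).pow 2).aestronglyMeasurable
    · rw [norm_eq_abs, abs_of_nonneg (sum_nonneg fun i _ => sum_nonneg fun j _ => sq_nonneg _)]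
      exact sum_le_sum fun i _ => row_le (isCoupling_plJ v g) _ i b n
  have iC : Integrable (fun g => Ch (plJ v g) (plU τ g)) (gauss (Idx (m + 1))) :=
    integrable_finsetSum _ fun i _ => (tC i).integrable
  refine (integral_mono_of_nonneg (ae_of_all _ fun g => sum_nonneg fun i _ => sum_nonneg
    fun j _ => sq_nonneg _) ((tR.const_mul 2).add (iC.const_mul 2))
    (ae_of_all _ fun g => hpt _ _)).trans ?_
  rw [integral_add' (tR.const_mul 2) (iC.const_mul 2), integral_const_mul, integral_const_mul]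
  refine add_le_add (mul_le_mul_of_nonneg_left ?_ two_pos.le)
    (mul_le_mul_of_nonneg_left ?_ two_pos.le)
  · refine (h1 n m τ _ hτ hT hmn (hP n m τ hτ hn (by omega))).trans ?_
    have e : √(n:ℝ) / n + P * (n:ℝ) ^ 2 / (n:ℝ) ^ 2 ≤ 1 + P := by
      refine add_le_add ?_ (le_of_eq (by field_simp))
      rw [div_le_one hn0]; exact sqrt_nat_le n
    exact (mul_le_mul_of_nonneg_right (le_abs_self C1) (by positivity)).trans
      (mul_le_mul_of_nonneg_left e (abs_nonneg _))
  · refine le_of_eq_of_le ?_ ((h2 n m τ hτ hT hmn).trans (le_abs_self _))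
    exact integral_finsetSum _ fun i _ => (tC i).integrable

/-- `RespBoundSpec`, given the bound on the diagonal corrections. -/
theorem respBoundSpec_of (hG : GrowSpec b) (hC : CrudeSpec b) (hO : CenterSpec b) (hS : SliceSpec b)
    (hR : RecSpec b)
    (hE : ∀ Tm : ℝ, ∃ C : ℝ, ∀ n m : ℕ, ∀ τ : ℝ, 0 ≤ τ → τ ≤ Tm → 0 < n → m ≤ n →
      pEv b n m τ (fun J u => (∑ i, epsV b n J u i ^ 4) ^ 2) ≤ C / (n:ℝ) ^ 2) :
    RespBoundSpec b := by
  intro Tm
  obtain ⟨C1, h1⟩ := residBound hG hC hO hS hR Tm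
  obtain ⟨C2, h2⟩ := hE Tm
  refine ⟨max C1 C2, fun n m τ hτ hT hn hmn => ⟨(h1 n m τ hτ hT hn hmn).trans (le_max_left _ _),
    (h2 n m τ hτ hT hn hmn).trans ?_⟩⟩
  exact div_le_div_of_nonneg_right (le_max_right _ _) (by positivity)

end Vale.Agent.P150.Weak.Resp
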