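import Vale.Agent.P150.Weak.Found.Slice

/-!
The error of linear response, row by row, in the slice at the row's spin.
-/

open Finset

namespace Vale.Agent.P150.Weak.Resp

open Gap

variable {m : ℕ}

/-- `r = d - bar C J`. -/
noncomputable def rV (i : Fin (m + 1)) (J : Mat (m + 1)) (u : Vec (m + 1)) : Vec m := fun a =>
  del i mg J u a - ∑ c, bar i cm2 J u a c * rowOf i J c

/-- `g = Del C ξ + 2 v bar v`, `ξ = J - v`. -/
noncomputable def gV (v : ℝ) (i : Fin (m + 1)) (J : Mat (m + 1)) (u : Vec (m + 1)) : Vec m :=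
  fun a => ∑ c, del i cm2 J u a c * (rowOf i J c - v) + 2 * v * bar i vv J u a

/-- `Del C 1`. -/
noncomputable def dC1 (i : Fin (m + 1)) (J : Mat (m + 1)) (u : Vec (m + 1)) : Vec m :=
  fun a => ∑ c, del i cm2 J u a c

lemma sum_row (J : Mat (m + 1)) (hJ : IsCoupling J) (i : Fin (m + 1)) (f : Fin (m + 1) → ℝ) :
    ∑ k, J i k * f k = ∑ c, rowOf i J c * f (i.succAbove c) := by
  rw [Fin.sum_univ_succAbove _ i, hJ.diag, zero_mul, zero_add]
  rfl

variable {J : Mat (m + 1)} (hJ : IsCoupling J) (u : Vec (m + 1)) (i : Fin (m + 1))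

include hJ

/-- `ε_i`, split as the fluctuating part and a small rest. -/
theorem epsV_eq (b : ℝ) (n : ℕ) :
    epsV b n J u i = (b ^ 2 / n * ∑ a, bar i cm2 J u a a -
        ∑ a, rowOf i J a * del i mg J u a) +
      b ^ 2 / n * (vw J u i - 2 * mg J u i * del i (fun J u => sq1 (mg J u) / 2) J u +
        vw J u i * sq1 (del i mg J u)) := by
  have hw := (vw_pos J u i).ne'
  have h1 : (∑ k, J i k * cm2 J u i k) / vw J u i = ∑ a, rowOf i J a * del i mg J u a := by
    rw [sum_row J hJ i, sum_div]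
    exact sum_congr rfl fun a _ => by rw [cm2_self_rest hJ]; field_simp
  have hdel : -2 * del i (fun J u => sq1 (mg J u) / 2) J u = ∑ a, del i cm2 J u a a := by
    simp only [del, Pi.smul_apply, Pi.sub_apply, smul_eq_mul, cm2_diag, vw, sq1, sum_div, mul_sum,
      ← sum_sub_distrib]
    exact sum_congr rfl fun a _ => by ring
  have h2 : ∑ k, vw J u k = vw J u i + ∑ a, cm2 J u (i.succAbove a) (i.succAbove a) := by
    rw [Fin.sum_univ_succAbove _ i]; simp only [cm2_diag]
  rw [epsV, h1, sAvg, h2]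
  simp only [cm2_rest hJ, sum_add_distrib, ← mul_sum]
  rw [← hdel]
  simp only [sq1, ← sq]
  ring

/-- The row's own entry. -/
theorem resid_self (b : ℝ) (n : ℕ) :
    resid b n J u i i = -(2 * (b ^ 2 / n) * mg J u i * vv J u i) := by
  have hw := (vw_pos J u i).ne'
  have hs : ∑ k, J i k * cm2 J u k i = (∑ k, J i k * cm2 J u i k) :=
    sum_congr rfl fun k _ => by rw [cm2_comm]
  simp only [resid, hA', hA, add_zero, sub_mul, sum_sub_distrib, ite_mul, zero_mul, sum_ite_eq,
    mem_univ, if_true, mul_assoc, ← mul_sum]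
  rw [show ∑ k, mg J u k * cm2 J u k i = vv J u i from
    sum_congr rfl fun k _ => by rw [cm2_comm, mul_comm], hs, cm2_diag, epsV]
  field_simp
  ring

/-- The other entries of the row. -/
theorem resid_rest (b : ℝ) (n : ℕ) (a : Fin m) :
    resid b n J u i (i.succAbove a) = rV i J u a - mg J u i * gV (b ^ 2 / n) i J u a -
      b ^ 2 / n * mg J u i * dC1 i J u a -
      2 * (b ^ 2 / n) * mg J u i * (vv J u (i.succAbove a) - bar i vv J u a) := by
  have hw := (vw_pos J u i).ne'
  have hd : (∑ k, J i k * cm2 J u i k) / vw J u i = ∑ c, rowOf i J c * del i mg J u c := by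
    rw [sum_row J hJ i, sum_div]
    exact sum_congr rfl fun c _ => by rw [cm2_self_rest hJ]; field_simp
  simp only [resid, hA', hA, add_zero, sub_mul, sum_sub_distrib, ite_mul, zero_mul, sum_ite_eq,
    mem_univ, if_true, mul_assoc, ← mul_sum, if_neg (Fin.succAbove_ne i a).symm, sub_zero]
  rw [show ∑ k, mg J u k * cm2 J u k (i.succAbove a) = vv J u (i.succAbove a) from
    sum_congr rfl fun k _ => by rw [cm2_comm, mul_comm], sum_row J hJ i, epsV, hd,
    cm2_self_rest hJ]
  simp only [cm2_rest hJ, rV, gV, dC1, mul_add, sum_add_distrib, mul_sum]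
  simp only [mul_sub, sum_sub_distrib]
  have e1 : ∑ c, rowOf i J c * bar i cm2 J u c a = ∑ c, bar i cm2 J u a c * rowOf i J c := by
    refine sum_congr rfl fun c _ => ?_
    simp only [bar, Pi.smul_apply, Pi.add_apply, smul_eq_mul, cm2_comm _ _ c a]
    ring
  have e2 : ∑ c, rowOf i J c * (mg J u i * del i cm2 J u c a) =
      mg J u i * ∑ c, del i cm2 J u a c * rowOf i J c := by
    rw [mul_sum]
    refine sum_congr rfl fun c _ => ?_
    simp only [del, Pi.smul_apply, Pi.sub_apply, smul_eq_mul, cm2_comm _ _ c a]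
    ring
  have e3 : ∑ c, rowOf i J c * (vw J u i * (del i mg J u c * del i mg J u a)) =
      vw J u i * del i mg J u a * ∑ c, rowOf i J c * del i mg J u c := by
    rw [mul_sum]; exact sum_congr rfl fun c _ => by ring
  rw [e1, e2, e3]
  simp only [← mul_sum, ← sum_mul]
  field_simp
  ring

end Vale.Agent.P150.Weak.Resp
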