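import Vale.Agent.P150.Weak.Upd
import Vale.Agent.P150.Weak.Rec.Est
import Vale.Agent.P150.Weak.Gauss.MP

/-!
The fluctuating part of `ε` as a function of one row: its eighth moment over the row is at most the
fourth power of the pair variance times that of its gradient.
-/

open MeasureTheory ProbabilityTheory Finset Real

namespace Vale.Agent.P150.Weak.Resp

open Gap Rec

variable {m : ℕ}

/-- A half difference along the row. -/
noncomputable def hDel (φ : Mat m → Vec m → ℝ) (v : ℝ) (G : Mat m) (h : Vec m)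
    (r : Fin m → ℝ) : ℝ :=
  (φ G (h + rv v r) - φ G (h - rv v r)) / 2

/-- A half sum along the row. -/
noncomputable def hBar (φ : Mat m → Vec m → ℝ) (v : ℝ) (G : Mat m) (h : Vec m)
    (r : Fin m → ℝ) : ℝ :=
  (φ G (h + rv v r) + φ G (h - rv v r)) / 2

lemma tame_hDel {φ : Mat m → Vec m → ℝ} (hφ : Bd φ) (v : ℝ) (G : Mat m) (h : Vec m) :
    Tame (hDel φ v G h) := by
  obtain ⟨hc, B, hB⟩ := hφ
  refine Tame.of_bounded (B := B) ?_ fun r => ?_
  · exact ((hc.comp (f := fun r : Fin m → ℝ => (G, h + rv v r)) (by unfold rv; fun_prop)).sub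
      (hc.comp (f := fun r : Fin m → ℝ => (G, h - rv v r)) (by unfold rv; fun_prop))).div_const 2
  · have h1 := abs_le.1 (hB G (h + rv v r))
    have h2 := abs_le.1 (hB G (h - rv v r))
    rw [hDel, abs_le]; constructor <;> linarith

lemma tame_hBar {φ : Mat m → Vec m → ℝ} (hφ : Bd φ) (v : ℝ) (G : Mat m) (h : Vec m) :
    Tame (hBar φ v G h) := by
  obtain ⟨hc, B, hB⟩ := hφ
  refine Tame.of_bounded (B := B) ?_ fun r => ?_
  · exact ((hc.comp (f := fun r : Fin m → ℝ => (G, h + rv v r)) (by unfold rv; fun_prop)).add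
      (hc.comp (f := fun r : Fin m → ℝ => (G, h - rv v r)) (by unfold rv; fun_prop))).div_const 2
  · have h1 := abs_le.1 (hB G (h + rv v r))
    have h2 := abs_le.1 (hB G (h - rv v r))
    rw [hBar, abs_le]; constructor <;> linarith

section deriv

variable {φ : Mat m → Vec m → ℝ} {D : Fin m → Mat m → Vec m → ℝ}

lemma hasDerivAt_sides
    (hd : ∀ G u c t, HasDerivAt (fun s : ℝ => φ G (u + s • c)) (∑ k, c k * D k G (u + t • c)) t)
    (v : ℝ) (G : Mat m) (h : Vec m) (k : Fin m) (r : Fin m → ℝ) (t : ℝ) :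
    HasDerivAt (fun s => φ G (h + rv v (Function.update r k s)))
        (√v * D k G (h + rv v (Function.update r k t))) t ∧
      HasDerivAt (fun s => φ G (h - rv v (Function.update r k s)))
        (-(√v * D k G (h - rv v (Function.update r k t)))) t := by
  set c : Vec m := Pi.single k (√v) with hc
  set w := rv v (Function.update r k t)
  have e : ∀ s, rv v (Function.update r k s) = w + (s - t) • c := fun s => by
    funext j
    simp only [rv, w, c, Pi.add_apply, Pi.smul_apply, smul_eq_mul]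
    rcases eq_or_ne j k with rfl | hj
    · simp; ring
    · simp [hj]
  have e1 : ∀ s, h + rv v (Function.update r k s) = h + w + (s - t) • c := fun s => by
    rw [e s, add_assoc]
  have e2 : ∀ s, h - rv v (Function.update r k s) = h - w + (s - t) • -c := fun s => by
    rw [e s]; funext j
    simp only [Pi.sub_apply, Pi.add_apply, Pi.smul_apply, Pi.neg_apply, smul_eq_mul]; ring
  simp only [e1, e2]
  constructor
  · have := HasDerivAt.comp_sub_const t t (hd G (h + w) c (t - t))
    simpa [hc, Pi.single_apply, Function.comp_def] using this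
  · have := HasDerivAt.comp_sub_const t t (hd G (h - w) (-c) (t - t))
    simpa [hc, Pi.single_apply, Function.comp_def] using this

lemma hasDerivAt_hDel
    (hd : ∀ G u c t, HasDerivAt (fun s : ℝ => φ G (u + s • c)) (∑ k, c k * D k G (u + t • c)) t)
    (v : ℝ) (G : Mat m) (h : Vec m) (k : Fin m) (r : Fin m → ℝ) (t : ℝ) :
    HasDerivAt (fun s => hDel φ v G h (Function.update r k s))
      (√v * hBar (D k) v G h (Function.update r k t)) t := by
  obtain ⟨h1, h2⟩ := hasDerivAt_sides hd v G h k r t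
  refine ((h1.sub h2).div_const 2).congr_deriv ?_
  simp only [hBar]; ring

lemma hasDerivAt_hBar
    (hd : ∀ G u c t, HasDerivAt (fun s : ℝ => φ G (u + s • c)) (∑ k, c k * D k G (u + t • c)) t)
    (v : ℝ) (G : Mat m) (h : Vec m) (k : Fin m) (r : Fin m → ℝ) (t : ℝ) :
    HasDerivAt (fun s => hBar φ v G h (Function.update r k s))
      (√v * hDel (D k) v G h (Function.update r k t)) t := by
  obtain ⟨h1, h2⟩ := hasDerivAt_sides hd v G h k r t
  refine ((h1.add h2).div_const 2).congr_deriv ?_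
  simp only [hDel]; ring

end deriv

lemma hasDerivAt_coord (k a : Fin m) (r : Fin m → ℝ) (t : ℝ) :
    HasDerivAt (fun s => Function.update r k s a) (if a = k then 1 else 0) t := by
  rcases eq_or_ne a k with rfl | h
  · simpa using hasDerivAt_id' (x := t)
  · simpa [h] using hasDerivAt_const t (r a)

/-- A row divergence has mean zero. -/
lemma mean_delta {X D : Fin m → (Fin m → ℝ) → ℝ} (hX : ∀ a, Tame (X a)) (hD : ∀ a, Tame (D a))
    {v : ℝ} (hv : 0 ≤ v)
    (hd : ∀ a g t, HasDerivAt (fun s => X a (Function.update g a s))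
      (√v * D a (Function.update g a t)) t) :
    ∫ r, ∑ a, (√v * r a * X a r - v * D a r) ∂gauss (Fin m) = 0 := by
  have i1 : ∀ a, Integrable (fun r => √v * r a * X a r) (gauss (Fin m)) := fun a =>
    (((Tame.const (√v)).mul (Tame.coord a)).mul (hX a)).integrable
  have i2 : ∀ a, Integrable (fun r => v * D a r) (gauss (Fin m)) := fun a =>
    ((hD a).integrable).const_mul v
  rw [integral_finsetSum (f := fun a r => √v * r a * X a r - v * D a r) _
    fun a _ => (i1 a).sub (i2 a)]
  refine sum_eq_zero fun a _ => ?_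
  have h := ibp (i := a) (hX a) ((Tame.const (√v)).mul (hD a))
    fun g t => by simpa only [update_eq_upd] using hd a g t
  rw [integral_sub (i1 a) (i2 a)]
  simp only [mul_assoc, integral_const_mul] at h ⊢
  rw [h, ← mul_assoc, mul_self_sqrt hv, sub_self]

/-- The fluctuating part of `ε`. -/
noncomputable def epsFl (v : ℝ) (G : Mat m) (h : Vec m) (r : Fin m → ℝ) : ℝ :=
  ∑ a, (√v * r a * hDel (fun J u => mg J u a) v G h r -
    v * hBar (fun J u => cm2 J u a a) v G h r)

/-- `bar C ξ`. -/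
noncomputable def barCxi (v : ℝ) (G : Mat m) (h : Vec m) (c : Fin m) (r : Fin m → ℝ) : ℝ :=
  ∑ a, √v * r a * hBar (fun J u => cm2 J u a c) v G h r

/-- The bound of the gradient. -/
noncomputable def epsMaj (v : ℝ) (G : Mat m) (h : Vec m) (r : Fin m → ℝ) : ℝ :=
  (∑ a, hDel (fun J u => mg J u a) v G h r ^ 2) ^ 4 +
    v ^ 8 * (∑ a, hDel (fun J u => vv J u a) v G h r ^ 2) ^ 4 +
    v ^ 4 * ((∑ a, ∑ c, hBar (fun J u => cm2 J u a c) v G h r ^ 2) ^ 4 +
      (∑ a, ∑ c, ∑ e, hDel (fun J u => cm3 J u a c e) v G h r ^ 2) ^ 4 *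
        (∑ a, (√v * r a) ^ 2) ^ 4)

variable (v : ℝ) (G : Mat m) (h : Vec m)

lemma tame_barCxi (c : Fin m) : Tame (barCxi v G h c) :=
  Tame.sum fun a _ => ((Tame.const _).mul (Tame.coord a)).mul (tame_hBar (bd_cm2 a c) v G h)

lemma tame_epsFl : Tame (epsFl v G h) :=
  Tame.sum fun a _ => (((Tame.const _).mul (Tame.coord a)).mul (tame_hDel (bd_mg a) v G h)).sub
    ((Tame.const v).mul (tame_hBar (bd_cm2 a a) v G h))

lemma tame_epsMaj : Tame (epsMaj v G h) :=
  (((Tame.sum fun a _ => (tame_hDel (bd_mg a) v G h).pow 2).pow 4).add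
    ((Tame.const _).mul ((Tame.sum fun a _ => (tame_hDel (bd_vv a) v G h).pow 2).pow 4))).add
    ((Tame.const _).mul (((Tame.sum fun a _ => Tame.sum fun c _ =>
      (tame_hBar (bd_cm2 a c) v G h).pow 2).pow 4).add
      (((Tame.sum fun a _ => Tame.sum fun c _ => Tame.sum fun e _ =>
        (tame_hDel (bd_cm3 a c e) v G h).pow 2).pow 4).mul
        ((Tame.sum fun a _ => ((Tame.const _).mul (Tame.coord a)).pow 2).pow 4))))

lemma sum_hDel_cm3_diag (j : Fin m) (r : Fin m → ℝ) :
    ∑ a, hDel (fun J u => cm3 J u a a j) v G h r = -2 * hDel (fun J u => vv J u j) v G h r := by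
  simp only [hDel, ← sum_div, sum_sub_distrib, sum_cm3_diag]
  ring

lemma hasDerivAt_epsFl (k : Fin m) (r : Fin m → ℝ) (t : ℝ) :
    HasDerivAt (fun s => epsFl v G h (Function.update r k s))
      (√v * (hDel (fun J u => mg J u k) v G h (Function.update r k t) +
        barCxi v G h k (Function.update r k t) +
        2 * v * hDel (fun J u => vv J u k) v G h (Function.update r k t))) t := by
  unfold epsFl
  refine (HasDerivAt.fun_sum fun a _ => (((hasDerivAt_coord k a r t).const_mul (√v)).mul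
    (hasDerivAt_hDel (D := fun k J u => cm2 J u a k) (fun G u c t => hasDerivAt_mg_line G u c a t)
      v G h k r t)).sub
    ((hasDerivAt_hBar (D := fun k J u => cm3 J u a a k)
      (fun G u c t => hasDerivAt_cm2_line G u c a a t) v G h k r t).const_mul v)).congr_deriv ?_
  simp only [mul_ite, mul_one, mul_zero, ite_mul, zero_mul, sum_add_distrib, sum_sub_distrib,
    sum_ite_eq', mem_univ, if_true, ← mul_sum, sum_hDel_cm3_diag, barCxi]
  simp only [mul_add, mul_sum]
  have e : ∀ a, √v * Function.update r k t a *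
      (√v * hBar (fun J u => cm2 J u a k) v G h (Function.update r k t)) =
      √v * (√v * Function.update r k t a *
        hBar (fun J u => cm2 J u a k) v G h (Function.update r k t)) := fun a => by ring
  simp only [e]
  ring

lemma hasDerivAt_barCxi (k c : Fin m) (r : Fin m → ℝ) (t : ℝ) :
    HasDerivAt (fun s => barCxi v G h c (Function.update r k s))
      (√v * (hBar (fun J u => cm2 J u k c) v G h (Function.update r k t) +
        ∑ a, √v * Function.update r k t a *
          hDel (fun J u => cm3 J u a c k) v G h (Function.update r k t))) t := by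
  unfold barCxi
  refine (HasDerivAt.fun_sum fun a _ => ((hasDerivAt_coord k a r t).const_mul (√v)).mul
    (hasDerivAt_hBar (D := fun k J u => cm3 J u a c k)
      (fun G u e t => hasDerivAt_cm2_line G u e a c t) v G h k r t)).congr_deriv ?_
  simp only [mul_ite, mul_one, mul_zero, ite_mul, zero_mul, sum_add_distrib, sum_ite_eq',
    mem_univ, if_true, mul_add, mul_sum]
  congr 1
  exact sum_congr rfl fun a _ => by ring

lemma integral_barCxi (hv : 0 ≤ v) (c : Fin m) :
    ∫ r, barCxi v G h c r ∂gauss (Fin m) =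
      -2 * v * ∫ r, hDel (fun J u => vv J u c) v G h r ∂gauss (Fin m) := by
  have h0 := mean_delta (X := fun a => hBar (fun J u => cm2 J u a c) v G h)
    (D := fun a => hDel (fun J u => cm3 J u a c a) v G h) (fun a => tame_hBar (bd_cm2 a c) v G h)
    (fun a => tame_hDel (bd_cm3 a c a) v G h) hv fun a g t =>
      hasDerivAt_hBar (D := fun k J u => cm3 J u a c k)
        (fun G u e t => hasDerivAt_cm2_line G u e a c t) v G h a g t
  have e : ∀ r, ∑ a, hDel (fun J u => cm3 J u a c a) v G h r =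
      -2 * hDel (fun J u => vv J u c) v G h r := fun r => by
    rw [← sum_hDel_cm3_diag v G h c r]
    refine sum_congr rfl fun a _ => ?_
    simp only [hDel, cm3_swap23 _ _ a c a]
  simp only [sum_sub_distrib, ← mul_sum, e] at h0
  have i2 : Integrable (fun r => v * (-2 * hDel (fun J u => vv J u c) v G h r)) (gauss (Fin m)) :=
    (((tame_hDel (bd_vv c) v G h).integrable).const_mul (-2)).const_mul v
  rw [integral_sub (by exact (tame_barCxi v G h c).integrable) i2, integral_const_mul,
    integral_const_mul] at h0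
  simp only [barCxi]
  linarith

lemma four_pow_le {x y z : ℝ} (hx : 0 ≤ x) (hy : 0 ≤ y) (hz : 0 ≤ z) :
    (x + y + z) ^ 4 ≤ 64 * (x ^ 4 + y ^ 4 + z ^ 4) := by
  have h1 := add_pow_le (add_nonneg hx hy) hz 4
  have h2 := add_pow_le hx hy 4
  norm_num at h1 h2
  nlinarith [pow_nonneg hz 4]

lemma barCxi_sq_le (hv : 0 ≤ v) :
    Integrable (fun r => (∑ c, barCxi v G h c r ^ 2) ^ 4) (gauss (Fin m)) ∧
      ∫ r, (∑ c, barCxi v G h c r ^ 2) ^ 4 ∂gauss (Fin m) ≤
        128 * ((10 * 4) ^ 4 * (128 * v ^ 4 *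
          ∫ r, ((∑ a, ∑ c, hBar (fun J u => cm2 J u a c) v G h r ^ 2) ^ 4 +
            (∑ a, ∑ c, ∑ e, hDel (fun J u => cm3 J u a c e) v G h r ^ 2) ^ 4 *
              (∑ a, (√v * r a) ^ 2) ^ 4) ∂gauss (Fin m)) +
          256 * v ^ 8 * ∫ r, (∑ a, hDel (fun J u => vv J u a) v G h r ^ 2) ^ 4 ∂gauss (Fin m)) := by
  set μ := gauss (Fin m)
  have hP : Integrable (fun r => (∑ c, barCxi v G h c r ^ 2) ^ 4) μ :=
    ((Tame.sum fun c _ => (tame_barCxi v G h c).pow 2).pow 4).integrable
  refine ⟨hP, ?_⟩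
  set Y := fun (k c : Fin m) (r : Fin m → ℝ) => √v * (hBar (fun J u => cm2 J u k c) v G h r +
    ∑ a, √v * r a * hDel (fun J u => cm3 J u a c k) v G h r)
  have tY : ∀ k c, Tame (Y k c) := fun k c => (Tame.const _).mul
    ((tame_hBar (bd_cm2 k c) v G h).add (Tame.sum fun a _ =>
      ((Tame.const _).mul (Tame.coord a)).mul (tame_hDel (bd_cm3 a c k) v G h)))
  obtain ⟨-, hi, hle⟩ := mp_moment (F := fun c => barCxi v G h c) (D := Y)
    (fun c => (tame_barCxi v G h c).1) (fun k c => (tY k c).1)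
    (fun k c r t => by simpa only [update_eq_upd] using hasDerivAt_barCxi v G h k c r t) (p := 4) (by norm_num)
    ((Tame.sum fun c _ => Tame.sum fun k _ => (tY k c).pow 2).pow 4).integrable
  simp only [Nat.cast_ofNat] at hle
  set M := fun c => ∫ r, barCxi v G h c r ∂μ with hM
  set B := fun r => (∑ a, ∑ c, hBar (fun J u => cm2 J u a c) v G h r ^ 2)
  set T := fun r => (∑ a, ∑ c, ∑ e, hDel (fun J u => cm3 J u a c e) v G h r ^ 2)
  set S := fun r : Fin m → ℝ => (∑ a, (√v * r a) ^ 2)
  set V := fun r => (∑ a, hDel (fun J u => vv J u a) v G h r ^ 2)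
  have tB : Tame B := Tame.sum fun a _ => Tame.sum fun c _ => (tame_hBar (bd_cm2 a c) v G h).pow 2
  have tT : Tame T := Tame.sum fun a _ => Tame.sum fun c _ => Tame.sum fun e _ =>
    (tame_hDel (bd_cm3 a c e) v G h).pow 2
  have tS : Tame S := Tame.sum fun a _ => ((Tame.const _).mul (Tame.coord a)).pow 2
  have tV : Tame V := Tame.sum fun a _ => (tame_hDel (bd_vv a) v G h).pow 2
  have iZ : Integrable (fun r => B r ^ 4 + T r ^ 4 * S r ^ 4) μ :=
    ((tB.pow 4).add ((tT.pow 4).mul (tS.pow 4))).integrable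
  have hY : ∀ r, (∑ c, ∑ k, Y k c r ^ 2) ^ 4 ≤ 128 * v ^ 4 * (B r ^ 4 + T r ^ 4 * S r ^ 4) := by
    intro r
    have h1 : ∑ c, ∑ k, Y k c r ^ 2 ≤ v * (2 * B r + 2 * (T r * S r)) := by
      have hB' : B r = ∑ c, ∑ k, hBar (fun J u => cm2 J u k c) v G h r ^ 2 := sum_comm
      have hT' : T r = ∑ c, ∑ k, ∑ a, hDel (fun J u => cm3 J u a c k) v G h r ^ 2 :=
        sum_comm.trans (sum_congr rfl fun c _ => sum_comm)
      rw [hB', hT', sum_mul, mul_sum, mul_sum, ← sum_add_distrib, mul_sum]
      refine sum_le_sum fun c _ => ?_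
      rw [sum_mul, mul_sum, mul_sum, ← sum_add_distrib, mul_sum]
      refine sum_le_sum fun k _ => ?_
      simp only [Y, mul_pow, sq_sqrt hv]
      refine mul_le_mul_of_nonneg_left (add_sq_le.trans ?_) hv
      have hcs := sum_mul_sq_le_sq_mul_sq univ (fun a => √v * r a)
        fun a => hDel (fun J u => cm3 J u a c k) v G h r
      rw [mul_add, mul_comm _ (S r)]
      linarith
    refine (pow_le_pow_left₀ (sum_nonneg fun c _ => sum_nonneg fun k _ => sq_nonneg _) h1 4).trans ?_
    rw [mul_pow, mul_comm 128, mul_assoc, ← mul_pow (T r)]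
    refine mul_le_mul_of_nonneg_left ?_ (by positivity)
    have := add_pow_le (show 0 ≤ 2 * B r from mul_nonneg zero_le_two
      (sum_nonneg fun a _ => sum_nonneg fun c _ => sq_nonneg _))
      (show 0 ≤ 2 * (T r * S r) from mul_nonneg zero_le_two (mul_nonneg
        (sum_nonneg fun a _ => sum_nonneg fun c _ => sum_nonneg fun e _ => sq_nonneg _)
        (sum_nonneg fun a _ => sq_nonneg _))) 4
    rw [mul_pow 2 (B r), mul_pow 2 (T r * S r)] at this
    norm_num at this
    linarith
  have hμ : (∑ c, M c ^ 2) ^ 4 ≤ 256 * v ^ 8 * ∫ r, V r ^ 4 ∂μ := by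
    have h1 : ∑ c, M c ^ 2 ≤ 4 * v ^ 2 * ∫ r, V r ∂μ := by
      rw [integral_finsetSum _ fun a _ => ((tame_hDel (bd_vv a) v G h).pow 2).integrable, mul_sum]
      refine sum_le_sum fun c _ => ?_
      simp only [hM]
      rw [integral_barCxi v G h hv c, mul_pow, mul_pow]
      have := sq_integral_le (μ := μ) (tame_hDel (bd_vv c) v G h).integrable
        ((tame_hDel (bd_vv c) v G h).pow 2).integrable
      rw [probReal_univ, one_mul] at this
      norm_num
      exact mul_le_mul_of_nonneg_left this (by positivity)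
    refine (pow_le_pow_left₀ (sum_nonneg fun c _ => sq_nonneg _) h1 4).trans ?_
    rw [mul_pow, show (4 * v ^ 2) ^ 4 = 256 * v ^ 8 by ring]
    exact mul_le_mul_of_nonneg_left (pow_integral_le
      (fun r => sum_nonneg fun a _ => sq_nonneg _) tV.integrable (tV.pow 4).integrable)
      (by positivity)
  have hpt : ∀ r, (∑ c, barCxi v G h c r ^ 2) ^ 4 ≤
      128 * ((∑ c, (barCxi v G h c r - M c) ^ 2) ^ 4 + (∑ c, M c ^ 2) ^ 4) := by
    intro r
    have h1 : ∑ c, barCxi v G h c r ^ 2 ≤
        2 * ∑ c, (barCxi v G h c r - M c) ^ 2 + 2 * ∑ c, M c ^ 2 := by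
      rw [mul_sum, mul_sum, ← sum_add_distrib]
      exact sum_le_sum fun c _ => by nlinarith [sq_nonneg (barCxi v G h c r - 2 * M c)]
    refine (pow_le_pow_left₀ (sum_nonneg fun c _ => sq_nonneg _) h1 4).trans
      ((add_pow_le (by positivity) (by positivity) 4).trans_eq ?_)
    norm_num
    ring
  refine (integral_mono hP ((hi.add (integrable_const _)).const_mul 128) hpt).trans ?_
  rw [integral_const_mul, integral_add' hi (integrable_const _), integral_const, probReal_univ,
    one_smul]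
  refine mul_le_mul_of_nonneg_left (add_le_add (hle.trans (mul_le_mul_of_nonneg_left ?_ (by positivity))) hμ)
    (by norm_num)
  rw [← integral_const_mul (128 * v ^ 4)]
  exact integral_mono
    ((Tame.sum fun c _ => Tame.sum fun k _ => (tY k c).pow 2).pow 4).integrable
    (iZ.const_mul _) hY

/-- The constant of `epsFl_pow_le`. -/
noncomputable def epsK : ℝ := (10 * 4) ^ 4 * 81 * 64 * (1 + 256 + 128 * ((10 * 4) ^ 4 * 128 + 256))

/-- **The eighth moment of the fluctuating part over the row.** -/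
theorem epsFl_pow_le (hv : 0 ≤ v) :
    ∫ r, epsFl v G h r ^ 8 ∂gauss (Fin m) ≤
      epsK * v ^ 4 * ∫ r, epsMaj v G h r ∂gauss (Fin m) := by
  set μ := gauss (Fin m)
  set Y := fun (k : Fin m) (_ : Unit) (r : Fin m → ℝ) =>
    √v * (hDel (fun J u => mg J u k) v G h r + barCxi v G h k r +
      2 * v * hDel (fun J u => vv J u k) v G h r)
  have tY : ∀ k u, Tame (Y k u) := fun k _ => (Tame.const _).mul
    (((tame_hDel (bd_mg k) v G h).add (tame_barCxi v G h k)).add
      ((Tame.const _).mul (tame_hDel (bd_vv k) v G h)))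
  obtain ⟨-, hi, hle⟩ := mp_moment (F := fun _ : Unit => epsFl v G h) (D := Y)
    (fun _ => (tame_epsFl v G h).1) (fun k u => (tY k u).1)
    (fun k _ r t => by simpa only [update_eq_upd] using hasDerivAt_epsFl v G h k r t) (p := 4) (by norm_num)
    ((Tame.sum fun _ _ => Tame.sum fun k _ => (tY k ()).pow 2).pow 4).integrable
  have hmean : ∫ r, epsFl v G h r ∂gauss (Fin m) = 0 :=
    mean_delta (fun a => tame_hDel (bd_mg a) v G h) (fun a => tame_hBar (bd_cm2 a a) v G h) hv
      fun a g t => hasDerivAt_hDel (D := fun k J u => cm2 J u a k)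
        (fun G u c t => hasDerivAt_mg_line G u c a t) v G h a g t
  simp only [Finset.univ_unique, sum_singleton, hmean, sub_zero, ← pow_mul] at hle
  set A := fun r => (∑ a, hDel (fun J u => mg J u a) v G h r ^ 2) ^ 4
  set V := fun r => (∑ a, hDel (fun J u => vv J u a) v G h r ^ 2) ^ 4
  set P := fun r => (∑ c, barCxi v G h c r ^ 2) ^ 4
  have iA : Integrable A μ :=
    ((Tame.sum fun a _ => (tame_hDel (bd_mg a) v G h).pow 2).pow 4).integrable
  have iV : Integrable V μ :=
    ((Tame.sum fun a _ => (tame_hDel (bd_vv a) v G h).pow 2).pow 4).integrable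
  obtain ⟨iP, hP⟩ := barCxi_sq_le v G h hv
  have hpt : ∀ r, (∑ k, Y k () r ^ 2) ^ 4 ≤ v ^ 4 * (81 * 64 * (A r + P r + 256 * v ^ 8 * V r)) := by
    intro r
    have h1 : ∑ k, Y k () r ^ 2 ≤ v * (3 * (∑ a, hDel (fun J u => mg J u a) v G h r ^ 2 +
        ∑ c, barCxi v G h c r ^ 2 +
        4 * v ^ 2 * ∑ a, hDel (fun J u => vv J u a) v G h r ^ 2)) := by
      rw [mul_sum _ _ (4 * v ^ 2), ← sum_add_distrib, ← sum_add_distrib, mul_sum, mul_sum]
      refine sum_le_sum fun k _ => ?_
      simp only [Y, mul_pow, sq_sqrt hv]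
      refine mul_le_mul_of_nonneg_left ?_ hv
      set x := hDel (fun J u => mg J u k) v G h r
      set y := barCxi v G h k r
      set z := hDel (fun J u => vv J u k) v G h r
      nlinarith [sq_nonneg (x - y), sq_nonneg (x - 2 * v * z), sq_nonneg (y - 2 * v * z)]
    refine (pow_le_pow_left₀ (sum_nonneg fun k _ => sq_nonneg _) h1 4).trans ?_
    rw [mul_pow, mul_pow]
    refine mul_le_mul_of_nonneg_left ?_ (by positivity)
    norm_num
    have := four_pow_le (x := ∑ a, hDel (fun J u => mg J u a) v G h r ^ 2)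
      (y := ∑ c, barCxi v G h c r ^ 2)
      (z := 4 * v ^ 2 * ∑ a, hDel (fun J u => vv J u a) v G h r ^ 2)
      (sum_nonneg fun a _ => sq_nonneg _) (sum_nonneg fun a _ => sq_nonneg _)
      (mul_nonneg (by positivity) (sum_nonneg fun a _ => sq_nonneg _))
    rw [mul_pow (4 * v ^ 2), show (4 * v ^ 2) ^ 4 = 256 * v ^ 8 by ring] at this
    simp only [A, P, V]
    linarith
  have iAll : Integrable (fun r => A r + P r + 256 * v ^ 8 * V r) μ :=
    (iA.add iP).add (iV.const_mul _)
  refine hle.trans ((mul_le_mul_of_nonneg_left (integral_mono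
    ((Tame.sum fun k _ => (tY k ()).pow 2).pow 4).integrable
    ((iAll.const_mul _).const_mul _) hpt) (by positivity)).trans ?_)
  have e3 : ∫ r, (A r + P r + 256 * v ^ 8 * V r) ∂μ =
      ∫ r, A r ∂μ + ∫ r, P r ∂μ + 256 * v ^ 8 * ∫ r, V r ∂μ := by
    rw [integral_add (f := fun r => A r + P r) (iA.add iP) (iV.const_mul _), integral_add iA iP,
      integral_const_mul]
  rw [integral_const_mul, integral_const_mul, e3]
  set Z := fun r => (∑ a, ∑ c, hBar (fun J u => cm2 J u a c) v G h r ^ 2) ^ 4 +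
    (∑ a, ∑ c, ∑ e, hDel (fun J u => cm3 J u a c e) v G h r ^ 2) ^ 4 *
      (∑ a, (√v * r a) ^ 2) ^ 4
  have iZ : Integrable Z μ :=
    (((Tame.sum fun a _ => Tame.sum fun c _ => (tame_hBar (bd_cm2 a c) v G h).pow 2).pow 4).add
      (((Tame.sum fun a _ => Tame.sum fun c _ => Tame.sum fun e _ =>
        (tame_hDel (bd_cm3 a c e) v G h).pow 2).pow 4).mul
        ((Tame.sum fun a _ => ((Tame.const _).mul (Tame.coord a)).pow 2).pow 4))).integrable
  have eM : ∫ r, epsMaj v G h r ∂μ =
      ∫ r, A r ∂μ + v ^ 8 * ∫ r, V r ∂μ + v ^ 4 * ∫ r, Z r ∂μ := by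
    rw [show epsMaj v G h = fun r => A r + v ^ 8 * V r + v ^ 4 * Z r from rfl,
      integral_add (f := fun r => A r + v ^ 8 * V r) (iA.add (iV.const_mul _)) (iZ.const_mul _),
      integral_add iA (iV.const_mul _), integral_const_mul, integral_const_mul]
  have hA0 : 0 ≤ ∫ r, A r ∂μ := integral_nonneg fun r =>
    pow_nonneg (sum_nonneg fun a _ => sq_nonneg _) 4
  have hV0 : 0 ≤ v ^ 8 * ∫ r, V r ∂μ := mul_nonneg (by positivity) (integral_nonneg fun r =>
    pow_nonneg (sum_nonneg fun a _ => sq_nonneg _) 4)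
  have hZ0 : 0 ≤ v ^ 4 * ∫ r, Z r ∂μ := mul_nonneg (by positivity) (integral_nonneg fun r =>
    add_nonneg (pow_nonneg (sum_nonneg fun a _ => sum_nonneg fun c _ => sq_nonneg _) 4)
      (mul_nonneg (pow_nonneg
        (sum_nonneg fun a _ => sum_nonneg fun c _ => sum_nonneg fun e _ => sq_nonneg _) 4)
        (pow_nonneg (sum_nonneg fun a _ => sq_nonneg _) 4)))
  rw [eM, epsK]
  have hsum : (∫ r, A r ∂μ) + (∫ r, P r ∂μ) + 256 * v ^ 8 * ∫ r, V r ∂μ ≤
      (1 + 256 + 128 * ((10 * 4) ^ 4 * 128 + 256)) *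
        (∫ r, A r ∂μ + v ^ 8 * ∫ r, V r ∂μ + v ^ 4 * ∫ r, Z r ∂μ) := by
    norm_num at hP ⊢
    simp only [P, V, Z] at *
    linarith
  push_cast
  calc _ ≤ (10 * 4 : ℝ) ^ 4 * (v ^ 4 * (81 * 64 * ((1 + 256 + 128 * ((10 * 4) ^ 4 * 128 + 256)) *
        (∫ r, A r ∂μ + v ^ 8 * ∫ r, V r ∂μ + v ^ 4 * ∫ r, Z r ∂μ)))) := by gcongr
    _ = _ := by ring

end Vale.Agent.P150.Weak.Resp
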