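import Vale.Agent.P150.Weak.Resp.Alg
import Vale.Agent.P150.Weak.Resp.EpsRow
import Vale.Agent.P150.Weak.YBound.Integr

/-!
The fourth powers of `ε`: their sum has second moment of order `n⁻²`.
-/

open MeasureTheory ProbabilityTheory Finset Real

namespace Vale.Agent.P150.Weak.Resp

open Gap Rec
open YB (Gr)

variable {m : ℕ} {b : ℝ} {n : ℕ} {τ : ℝ}

lemma gr_bd {φ : Mat m → Vec m → ℝ} (h : Bd φ) : Gr φ :=
  let ⟨hc, _, hB⟩ := h
  Gr.of_le hc hB

lemma grEv_mono {f g : Mat m → Vec m → ℝ} (hf : Gr f) (hg : Gr g)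
    (hle : ∀ J u, IsCoupling J → f J u ≤ g J u) : pEv b n m τ f ≤ pEv b n m τ g :=
  integral_mono (hf.integrable _ _) (hg.integrable _ _) fun w => hle _ _ (isCoupling_plJ _ w)

lemma grEv_add {f g : Mat m → Vec m → ℝ} (hf : Gr f) (hg : Gr g) :
    pEv b n m τ (fun J u => f J u + g J u) = pEv b n m τ f + pEv b n m τ g :=
  integral_add (hf.integrable _ _) (hg.integrable _ _)

/-- An integrable observable of `m + 1` spins that does not see the spin's field. -/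
lemma pEv_gr_row {F : Mat (m + 1) → Vec (m + 1) → ℝ} (hF : Gr F) (i : Fin (m + 1))
    {f : (Idx m → ℝ) → (Fin m → ℝ) → ℝ}
    (hf : ∀ g r t, F (plJ (b ^ 2 / n) (join i g r t)) (plU τ (join i g r t)) = f g r) :
    Integrable (fun g => ∫ r, f g r ∂gauss (Fin m)) (gauss (Idx m)) ∧
      pEv b n (m + 1) τ F = ∫ g, ∫ r, f g r ∂gauss (Fin m) ∂gauss (Idx m) := by
  have hi := hF.integrable (b ^ 2 / n) τ
  refine ⟨?_, by rw [pEv_split i hi]; simp [hf]⟩
  have h := ((measurePreserving_join i).integrable_comp_of_integrable hi).integral_prod_left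
  refine h.congr (ae_of_all _ fun g => ?_)
  simp only [Function.comp_apply, hf]
  rw [integral_fun_fst (μ := gauss (Fin m)) (ν := gaussianReal 0 1) fun r => f g r,
    probReal_univ, one_smul]

/-- The squared length of the centred row. -/
def rowSq (v : ℝ) (i : Fin (m + 1)) (J : Mat (m + 1)) : ℝ := ∑ a, (rowOf i J a - v) ^ 2

lemma gr_rowSq (v : ℝ) (i : Fin (m + 1)) : Gr fun J (_ : Vec (m + 1)) => rowSq v i J :=
  Gr.sum fun _ => ((Gr.entry _ _).sub (Gr.const v)).pow 2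

/-- The centred row is of length one. -/
lemma rowSq_pow (hn : 0 < n) (hmn : m ≤ n) (i : Fin (m + 1)) :
    pEv b n (m + 1) τ (fun J _ => rowSq (b ^ 2 / n) i J ^ 8) ≤
      b ^ 16 * ∫ t, t ^ 16 ∂gaussianReal 0 1 := by
  set v := b ^ 2 / (n:ℝ) with hv
  have hv0 : 0 ≤ v := by positivity
  rw [(pEv_gr_row (b := b) (n := n) (τ := τ) ((gr_rowSq v i).pow 8) i
    (f := fun _ r => (∑ a, (√v * r a) ^ 2) ^ 8)
    fun g r t => by simp only [← hv, rowSq, rowOf_plJ]; simp).2]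
  simp only [integral_const, probReal_univ, one_smul]
  have hpt : ∀ r : Fin m → ℝ, (∑ a, (√v * r a) ^ 2) ^ 8 ≤
      v ^ 8 * ((m:ℝ) ^ 7 * ∑ a, r a ^ 16) := by
    intro r
    simp only [mul_pow, sq_sqrt hv0, ← mul_sum]
    refine mul_le_mul_of_nonneg_left ((pow_sum_le_card_mul_sum_pow (f := fun a => r a ^ 2)
      (fun a _ => sq_nonneg _) 7).trans_eq ?_) (by positivity)
    simp [← pow_mul]
  refine (integral_mono ((Tame.sum fun a _ => ((Tame.const _).mul (Tame.coord a)).pow 2).pow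
    8).integrable ((((Tame.sum fun a _ => (Tame.coord a).pow 16).integrable).const_mul _).const_mul _)
    hpt).trans ?_
  have he : ∀ a, ∫ r, r a ^ 16 ∂gauss (Fin m) = ∫ t, t ^ 16 ∂gaussianReal 0 1 := fun a =>
    integral_comp_mp (measurePreserving_eval (fun _ : Fin m => gaussianReal 0 1) a)
      (F := fun t => t ^ 16) (by fun_prop)
  rw [integral_const_mul, integral_const_mul, integral_finsetSum _ fun a _ =>
    ((Tame.coord a).pow 16).integrable, sum_congr rfl fun a _ => he a]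
  rw [sum_const, card_univ, Fintype.card_fin, nsmul_eq_mul, ← mul_assoc, ← mul_assoc, mul_assoc (v ^ 8),
    ← pow_succ, ← mul_pow]
  refine mul_le_mul_of_nonneg_right ?_ (integral_nonneg fun t => Even.pow_nonneg (by decide) t)
  rw [show b ^ 16 = (b ^ 2) ^ 8 by ring]
  refine pow_le_pow_left₀ (by positivity) ?_ 8
  rw [hv, div_mul_eq_mul_div, div_le_iff₀ (Nat.cast_pos.2 hn)]
  exact mul_le_mul_of_nonneg_left (Nat.cast_le.2 hmn) (sq_nonneg b)

/-- The fluctuating part of `ε_i`, in the disorder. -/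
noncomputable def fl0 (v : ℝ) (i : Fin (m + 1)) (J : Mat (m + 1)) (u : Vec (m + 1)) : ℝ :=
  ∑ a, ((rowOf i J a - v) * del i (fun J u => mg J u a) J u -
    v * bar i (fun J u => cm2 J u a a) J u)

/-- The bound of its gradient, in the disorder. -/
noncomputable def maj0 (v : ℝ) (i : Fin (m + 1)) (J : Mat (m + 1)) (u : Vec (m + 1)) : ℝ :=
  (∑ a, del i (fun J u => mg J u a) J u ^ 2) ^ 4 +
    v ^ 8 * (∑ a, del i (fun J u => vv J u a) J u ^ 2) ^ 4 +
    v ^ 4 * ((∑ a, ∑ c, bar i (fun J u => cm2 J u a c) J u ^ 2) ^ 4 +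
      (∑ a, ∑ c, ∑ e, del i (fun J u => cm3 J u a c e) J u ^ 2) ^ 4 * rowSq v i J ^ 4)

lemma gr_fl0 (v : ℝ) (i : Fin (m + 1)) : Gr fun J u => fl0 v i J u :=
  Gr.sum fun a => (((Gr.entry _ _).sub (Gr.const v)).mul (gr_bd ((bd_mg a).delI i))).sub
    ((gr_bd ((bd_cm2 a a).barI i)).const_mul v)

lemma gr_maj0 (v : ℝ) (i : Fin (m + 1)) : Gr fun J u => maj0 v i J u :=
  (((gr_bd (Bd.sum fun a => ((bd_mg a).delI i).pow 2)).pow 4).add
    (((gr_bd (Bd.sum fun a => ((bd_vv a).delI i).pow 2)).pow 4).const_mul _)).add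
    ((((gr_bd (Bd.sum fun a => Bd.sum fun c => ((bd_cm2 a c).barI i).pow 2)).pow 4).add
      (((gr_bd (Bd.sum fun a => Bd.sum fun c => Bd.sum fun e =>
        ((bd_cm3 a c e).delI i).pow 2)).pow 4).mul ((gr_rowSq v i).pow 4))).const_mul _)

/-- The eighth moment of the fluctuating part. -/
lemma fl0_pow_le (i : Fin (m + 1)) :
    pEv b n (m + 1) τ (fun J u => fl0 (b ^ 2 / n) i J u ^ 8) ≤
      epsK * (b ^ 2 / n) ^ 4 * pEv b n (m + 1) τ (fun J u => maj0 (b ^ 2 / n) i J u) := by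
  set v := b ^ 2 / (n:ℝ) with hv
  obtain ⟨i1, e1⟩ := pEv_gr_row (b := b) (n := n) (τ := τ) ((gr_fl0 v i).pow 8) i
    (f := fun g r => epsFl v (plJ v g) (plU τ g) r ^ 8) fun g r t => by
      simp only [← hv, fl0, epsFl, hDel, hBar, del_join, bar_join, rowOf_plJ, add_sub_cancel_left]
  obtain ⟨i2, e2⟩ := pEv_gr_row (b := b) (n := n) (τ := τ) (gr_maj0 v i) i
    (f := fun g r => epsMaj v (plJ v g) (plU τ g) r) fun g r t => by
      simp only [← hv, maj0, epsMaj, rowSq, hDel, hBar, del_join, bar_join, rowOf_plJ,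
        add_sub_cancel_left]
  rw [e1, e2, ← integral_const_mul]
  exact integral_mono i1 (i2.const_mul _) fun g => epsFl_pow_le v _ _ (by positivity)

/-- The moments that enter, at one spin. -/
lemma maj0_le (hG : GrowSpec b) (hC : CrudeSpec b) (Tm : ℝ) :
    ∃ C : ℝ, ∀ n m : ℕ, ∀ τ : ℝ, 0 ≤ τ → τ ≤ Tm → m + 1 ≤ n → ∀ i : Fin (m + 1),
      pEv b n (m + 1) τ (fun J u => maj0 (b ^ 2 / n) i J u) ≤ C := by
  obtain ⟨Cd, hd⟩ := sliceSpec hG hC 4 Tm
  obtain ⟨Cv, hV⟩ := delV_pow hG hC (p := 4) (by norm_num)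
  obtain ⟨Ct, hT⟩ := delT_pow hC (p := 8) (by norm_num)
  obtain ⟨Cg, hg⟩ := hG
  set K := ∫ t, t ^ 16 ∂gaussianReal 0 1
  refine ⟨Cd + b ^ 16 * |Cv| +
    b ^ 8 * (exp (2 * b ^ 2) * (Cg * 8) ^ 4 + |Ct| / 2 + b ^ 16 * K / 2),
    fun n m τ hτ hT' hmn i => ?_⟩
  have hn : 0 < n := by omega
  have hn' : (0:ℝ) < n := Nat.cast_pos.2 hn
  have hn1 : (1:ℝ) ≤ n := Nat.one_le_cast.2 hn
  set v := b ^ 2 / (n:ℝ) with hv
  set A := fun (J : Mat (m + 1)) (u : Vec (m + 1)) =>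
    (∑ a, del i (fun J u => mg J u a) J u ^ 2) ^ 4
  set V := fun (J : Mat (m + 1)) (u : Vec (m + 1)) =>
    (∑ a, del i (fun J u => vv J u a) J u ^ 2) ^ 4
  set B := fun (J : Mat (m + 1)) (u : Vec (m + 1)) =>
    (∑ a, ∑ c, bar i (fun J u => cm2 J u a c) J u ^ 2) ^ 4
  set T := fun (J : Mat (m + 1)) (u : Vec (m + 1)) =>
    (∑ a, ∑ c, ∑ e, del i (fun J u => cm3 J u a c e) J u ^ 2) ^ 4
  have bA : Bd A := (Bd.sum fun a => ((bd_mg a).delI i).pow 2).pow 4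
  have bV : Bd V := (Bd.sum fun a => ((bd_vv a).delI i).pow 2).pow 4
  have bB : Bd B := (Bd.sum fun a => Bd.sum fun c => ((bd_cm2 a c).barI i).pow 2).pow 4
  have bT : Bd T := (Bd.sum fun a => Bd.sum fun c => Bd.sum fun e =>
    ((bd_cm3 a c e).delI i).pow 2).pow 4
  have gA := gr_bd bA
  have gV := (gr_bd bV).const_mul (v ^ 8)
  have gR : Gr fun J (_ : Vec (m + 1)) => rowSq v i J ^ 4 := (gr_rowSq v i).pow 4
  have gTR : Gr fun J u => T J u * rowSq v i J ^ 4 := (gr_bd bT).mul gR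
  have hA : pEv b n (m + 1) τ A ≤ Cd := by
    refine le_of_eq_of_le ?_ (hd n m τ hτ hT' hmn i).1
    congr 1
  have hV' : pEv b n (m + 1) τ V ≤ |Cv| * (n:ℝ) ^ 4 := by
    refine le_of_eq_of_le ?_ ((hV n m τ hτ hmn i).trans
      (mul_le_mul_of_nonneg_right (le_abs_self _) (by positivity)))
    rw [sum_delV_pow]
  have hB' : pEv b n (m + 1) τ B ≤ exp (2 * b ^ 2) * (Cg * 8) ^ 4 * (n:ℝ) ^ 4 := by
    refine le_of_eq_of_le ?_ ((bar_pow_crude (b := b) (n := n) (τ := τ)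
      (φ := fun (ac : Fin m × Fin m) J u => cm2 J u ac.1 ac.2) (fun ac => bd_cm2 _ _) hτ
      (by omega) i 4).trans ?_)
    · simp only [B, Fintype.sum_prod_type]
    rw [mul_assoc (exp _)]
    refine mul_le_mul_of_nonneg_left ?_ (exp_pos _).le
    refine (sqrt_le_sqrt (le_of_eq_of_le ?_
      (hg n m 8 (τ + b ^ 2 / n) (by positivity) (by norm_num) hn (by omega)).1)).trans_eq ?_
    · congr 1; funext J u; simp [sq2, Fintype.sum_prod_type]
    rw [show (Cg * ((8:ℕ) * (n:ℝ))) ^ 8 = ((Cg * 8) ^ 4 * (n:ℝ) ^ 4) ^ 2 by push_cast; ring]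
    exact sqrt_sq (by positivity)
  have hTR : pEv b n (m + 1) τ (fun J u => T J u * rowSq v i J ^ 4) ≤
      (|Ct| / 2 + b ^ 16 * K / 2) * (n:ℝ) ^ 4 := by
    have gT2 := ((gr_bd bT).pow 2).const_mul (((n:ℝ) ^ 4)⁻¹ / 2)
    have gR2 := ((gr_rowSq v i).pow 8).const_mul ((n:ℝ) ^ 4 / 2)
    refine (grEv_mono gTR (gT2.add gR2) fun J u _ => ?_).trans ?_
    · have h0 : 0 < (n:ℝ) ^ 4 := by positivity
      have := div_nonneg (sq_nonneg (T J u - (n:ℝ) ^ 4 * rowSq v i J ^ 4)) h0.le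
      have e : (T J u - (n:ℝ) ^ 4 * rowSq v i J ^ 4) ^ 2 / (n:ℝ) ^ 4 =
          ((n:ℝ) ^ 4)⁻¹ * T J u ^ 2 - 2 * (T J u * rowSq v i J ^ 4) +
            (n:ℝ) ^ 4 * rowSq v i J ^ 8 := by field_simp; ring
      linarith
    rw [grEv_add gT2 gR2, pEv_const_mul, pEv_const_mul, add_mul]
    refine add_le_add ((mul_le_mul_of_nonneg_left (le_of_eq_of_le ?_
      ((hT n m τ hτ hmn i).trans (mul_le_mul_of_nonneg_right (le_abs_self _)
        (by positivity)))) (by positivity)).trans_eq ?_)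
      ((mul_le_mul_of_nonneg_left (rowSq_pow hn (by omega) i) (by positivity)).trans_eq ?_)
    · rw [sum_delT_pow]
      simp only [T, Fintype.sum_prod_type, ← pow_mul]
    · field_simp
    · ring
  rw [show (fun J u => maj0 v i J u) = fun J u =>
    A J u + v ^ 8 * V J u + v ^ 4 * (B J u + T J u * rowSq v i J ^ 4) from rfl,
    grEv_add (gA.add gV) (((gr_bd bB).add gTR).const_mul _), grEv_add gA gV, pEv_const_mul,
    pEv_const_mul, grEv_add (gr_bd bB) gTR]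
  refine add_le_add (add_le_add hA ?_) ?_
  · calc v ^ 8 * pEv b n (m + 1) τ V ≤ v ^ 8 * (|Cv| * (n:ℝ) ^ 4) := by gcongr
      _ = b ^ 16 * |Cv| / (n:ℝ) ^ 4 := by rw [hv]; field_simp
      _ ≤ _ := div_le_self (by positivity) (one_le_pow₀ hn1)
  · refine (mul_le_mul_of_nonneg_left (add_le_add hB' hTR) (by positivity)).trans_eq ?_
    rw [hv]; field_simp; ring

/-- `ε_i` from its fluctuating part. -/
lemma eps_pow_le (b : ℝ) {n : ℕ} (hmn : m + 1 ≤ n) {J : Mat (m + 1)} (hJ : IsCoupling J)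
    (u : Vec (m + 1)) (i : Fin (m + 1)) :
    epsV b n J u i ^ 8 ≤ 128 * fl0 (b ^ 2 / n) i J u ^ 8 +
      128 * (128 * 128) * (b ^ 2 / n) ^ 8 * ((n:ℝ) ^ 4 * sq1 (del i mg J u) ^ 4 + 1 +
        256 * del i (fun J u => sq1 (mg J u) / 2) J u ^ 8 + sq1 (del i mg J u) ^ 8) := by
  set v := b ^ 2 / (n:ℝ)
  set S := del i (fun J u => sq1 (mg J u) / 2) J u
  set D := sq1 (del i mg J u)
  set sd := ∑ a, del i mg J u a
  set w := vw J u i
  have e : epsV b n J u i = -fl0 v i J u + v * ((-sd + w) + (-2 * mg J u i * S + w * D)) := by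
    rw [epsV_eq hJ u i b n]
    simp only [fl0, sd, sum_sub_distrib, sub_mul, ← mul_sum, bar, del, Pi.smul_apply,
      Pi.add_apply, Pi.sub_apply, v, S, D, w]
    ring
  have hev : Even 8 := by decide
  have h8 : ∀ x y : ℝ, (x + y) ^ 8 ≤ 128 * (x ^ 8 + y ^ 8) := fun x y =>
    (hev.add_pow_le (a := x) (b := y)).trans_eq (by norm_num)
  have a1 : sd ^ 8 ≤ (n:ℝ) ^ 4 * D ^ 4 := by
    rw [show 8 = 2 * 4 from rfl, pow_mul, ← mul_pow]
    refine pow_le_pow_left₀ (sq_nonneg _) (sq_sum_le_card_mul_sum_sq.trans ?_) 4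
    rw [card_univ, Fintype.card_fin]
    exact mul_le_mul_of_nonneg_right (Nat.cast_le.2 (by omega))
      (sum_nonneg fun a _ => sq_nonneg _)
  have hw0 : 0 ≤ w := (vw_pos J u i).le
  have hw1 : w ≤ 1 := by simp only [w, vw]; linarith [sq_nonneg (mg J u i)]
  have a2 : w ^ 8 ≤ 1 := pow_le_one₀ hw0 hw1
  have a3 : (-2 * mg J u i * S) ^ 8 ≤ 256 * S ^ 8 := by
    rw [show (-2 * mg J u i * S) ^ 8 = mg J u i ^ 8 * (256 * S ^ 8) by ring]
    refine mul_le_of_le_one_left (mul_nonneg (by norm_num) (hev.pow_nonneg _)) ?_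
    rw [← hev.pow_abs]
    exact pow_le_one₀ (abs_nonneg _) (abs_mg_le J u i)
  have a4 : (w * D) ^ 8 ≤ D ^ 8 := by
    rw [mul_pow]; exact mul_le_of_le_one_left (hev.pow_nonneg _) a2
  rw [e]
  refine (h8 _ _).trans ?_
  rw [hev.neg_pow, mul_pow, mul_add]
  refine add_le_add le_rfl ?_
  rw [mul_assoc (128 : ℝ), mul_assoc (128 : ℝ)]
  refine mul_le_mul_of_nonneg_left ?_ (by norm_num)
  rw [mul_comm (128 * 128 : ℝ) (v ^ 8), mul_assoc (v ^ 8)]
  refine mul_le_mul_of_nonneg_left ((h8 _ _).trans ?_) (hev.pow_nonneg _)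
  have h1 := h8 (-sd) w
  rw [hev.neg_pow] at h1
  have h2 := h8 (-2 * mg J u i * S) (w * D)
  linarith

/-- **The eighth moment of `ε_i`.** -/
theorem eps_pow (hG : GrowSpec b) (hC : CrudeSpec b) (hO : CenterSpec b) (Tm : ℝ) :
    ∃ C : ℝ, 0 ≤ C ∧ ∀ n m : ℕ, ∀ τ : ℝ, 0 ≤ τ → τ ≤ Tm → m + 1 ≤ n → ∀ i : Fin (m + 1),
      pEv b n (m + 1) τ (fun J u => epsV b n J u i ^ 8) ≤ C / (n:ℝ) ^ 4 := by
  obtain ⟨Cm, hM⟩ := maj0_le hG hC Tm
  obtain ⟨C4, h4⟩ := sliceSpec hG hC 4 Tm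
  obtain ⟨C8, h8⟩ := sliceSpec hG hC 8 Tm
  obtain ⟨Cs, hS⟩ := delS_pow hG hC hO (p := 4) (by norm_num)
  refine ⟨128 * |epsK| * b ^ 8 * |Cm| +
    128 * (128 * 128) * b ^ 16 * (|C4| + 1 + 256 * |Cs| + |C8|), by positivity,
    fun n m τ hτ hT hmn i => ?_⟩
  have hn : 0 < n := by omega
  have hn1 : (1:ℝ) ≤ n := Nat.one_le_cast.2 hn
  set v := b ^ 2 / (n:ℝ) with hv
  have gd : ∀ k : ℕ, Gr fun (J : Mat (m + 1)) u => sq1 (del i mg J u) ^ k := fun k => by
    have h := gr_bd ((Bd.sum (s := univ) fun a => ((bd_mg (m := m) a).delI i).pow 2).pow k)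
    simpa [sq1, del] using h
  have gS : Gr fun (J : Mat (m + 1)) u => del i (fun J u => sq1 (mg J u) / 2) J u ^ 8 := by
    refine gr_bd ((Bd.delI ?_ i).pow 8)
    simpa [sq1, div_eq_inv_mul] using
      (Bd.sum (s := univ) fun j => (bd_mg (m := m) j).pow 2).const_mul (1 / 2)
  have g1 := ((gr_fl0 v i).pow 8).const_mul (128 : ℝ)
  have g21 := (gd 4).const_mul ((n:ℝ) ^ 4)
  have g22 := g21.add (Gr.const (1 : ℝ))
  have g23 := g22.add (gS.const_mul (256 : ℝ))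
  have g2 := (g23.add (gd 8)).const_mul (128 * (128 * 128) * v ^ 8)
  refine (grEv_mono ((YB.gr_epsV b n i).pow 8) (g1.add g2)
    fun J u hJ => eps_pow_le b hmn hJ u i).trans ?_
  rw [grEv_add g1 g2, pEv_const_mul, pEv_const_mul, grEv_add g23 (gd 8),
    grEv_add g22 (gS.const_mul _), grEv_add g21 (Gr.const 1), pEv_const_mul, pEv_const_mul,
    pEv_const, add_div]
  refine add_le_add ?_ ?_
  · have hE : 0 ≤ epsK := by unfold epsK; positivity
    refine (mul_le_mul_of_nonneg_left ((fl0_pow_le i).trans (mul_le_mul_of_nonneg_left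
      ((hM n m τ hτ hT hmn i).trans (le_abs_self _)) (by positivity))) (by norm_num)).trans_eq ?_
    rw [abs_of_nonneg hE]
    field_simp
  have b4 := (h4 n m τ hτ hT hmn i).1.trans (le_abs_self C4)
  have b8 := (h8 n m τ hτ hT hmn i).1.trans (le_abs_self C8)
  have bS : pEv b n (m + 1) τ (fun J u => del i (fun J u => sq1 (mg J u) / 2) J u ^ 8) ≤
      |Cs| * (n:ℝ) ^ 4 := by
    refine (hS n m τ hτ hmn i).trans (mul_le_mul (le_abs_self _) ?_ (by positivity) (abs_nonneg _))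
    exact pow_le_pow_left₀ (sqrt_nonneg _) (sqrt_nat_le n) 4
  have hn4 : (1:ℝ) ≤ (n:ℝ) ^ 4 := one_le_pow₀ hn1
  calc _ ≤ 128 * (128 * 128) * v ^ 8 *
        ((n:ℝ) ^ 4 * |C4| + (n:ℝ) ^ 4 * 1 + 256 * (|Cs| * (n:ℝ) ^ 4) + (n:ℝ) ^ 4 * |C8|) := by
        gcongr
        · simpa using hn4
        · exact b8.trans (le_mul_of_one_le_left (abs_nonneg _) hn4)
    _ = _ := by rw [hv]; field_simp

/-- **The fourth powers of `ε`.** -/
theorem epsFour (hG : GrowSpec b) (hC : CrudeSpec b) (hO : CenterSpec b) :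
    ∀ Tm : ℝ, ∃ C : ℝ, ∀ n m : ℕ, ∀ τ : ℝ, 0 ≤ τ → τ ≤ Tm → 0 < n → m ≤ n →
      pEv b n m τ (fun J u => (∑ i, epsV b n J u i ^ 4) ^ 2) ≤ C / (n:ℝ) ^ 2 := by
  intro Tm
  obtain ⟨C, hC0, hE⟩ := eps_pow hG hC hO Tm
  refine ⟨C, fun n m τ hτ hT hn hmn => ?_⟩
  cases m with
  | zero => simp [pEv]; positivity
  | succ m =>
    have hg : ∀ i : Fin (m + 1), Gr fun J u => epsV b n J u i ^ 8 := fun i =>
      (YB.gr_epsV b n i).pow 8
    refine (grEv_mono ((YB.gr_sum_eps b n).pow 2)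
      ((Gr.sum (s := univ) hg).const_mul (n:ℝ)) fun J u _ => ?_).trans ?_
    · refine sq_sum_le_card_mul_sum_sq.trans ?_
      rw [card_univ, Fintype.card_fin]
      simp only [← pow_mul]
      exact mul_le_mul_of_nonneg_right (Nat.cast_le.2 hmn)
        (sum_nonneg fun i _ => Even.pow_nonneg (by decide) _)
    rw [pEv_const_mul]
    have e : pEv b n (m + 1) τ (fun J u => ∑ i, epsV b n J u i ^ 8) =
        ∑ i, pEv b n (m + 1) τ fun J u => epsV b n J u i ^ 8 :=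
      integral_finsetSum _ fun i _ => (hg i).integrable _ _
    rw [e]
    refine (mul_le_mul_of_nonneg_left (sum_le_sum fun i _ => hE n m τ hτ hT hmn i)
      (Nat.cast_nonneg n)).trans ?_
    rw [sum_const, card_univ, Fintype.card_fin, nsmul_eq_mul]
    calc (n:ℝ) * (((m + 1 : ℕ) : ℝ) * (C / (n:ℝ) ^ 4)) ≤ n * (n * (C / (n:ℝ) ^ 4)) := by
          gcongr
      _ = _ := by field_simp

end Vale.Agent.P150.Weak.Resp
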