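import Vale.Agent.P150.Weak.Found.Deriv
import Vale.Agent.P150.Weak.Gauss.Basic

/-!
The fifth joint cumulant, as the field derivative of the fourth.
-/

open MeasureTheory Finset

namespace Vale.Agent.P150.Weak.Resp

open Gap

variable {m : ℕ}

/-- The field derivative of a Gibbs average of an observable that moves with the field. -/
lemma hasDerivAt_ev_moving (J : Mat m) (u : Vec m) (p : Fin m) {F : ℝ → Conf m → ℝ}
    {F' : Conf m → ℝ} {t : ℝ} (hF : ∀ x, HasDerivAt (fun s => F s x) (F' x) t) :
    HasDerivAt (fun s => ev J (Function.update u p s) (F s))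
      (ev J (Function.update u p t) (fun x => F t x * csp J (Function.update u p t) p x) +
        ev J (Function.update u p t) F') t := by
  have hmu : ∀ x, HasDerivAt (fun s => mu J (Function.update u p s) x)
      (mu J (Function.update u p t) x * csp J (Function.update u p t) p x) t := fun x => by
    have h := hasDerivAt_ev_field J u p (fun y => if y = x then 1 else 0) t
    simp only [ev, mul_ite, mul_one, mul_zero, sum_ite_eq', mem_univ, if_true, ite_mul, one_mul,
      zero_mul] at h
    exact h.congr_deriv (by rw [csp]; ring)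
  refine (HasDerivAt.fun_sum fun x _ => (hmu x).mul (hF x)).congr_deriv ?_
  simp only [ev, ← sum_add_distrib]
  exact sum_congr rfl fun x _ => by ring

lemma hasDerivAt_csp (J : Mat m) (u : Vec m) (i p : Fin m) (x : Conf m) (t : ℝ) :
    HasDerivAt (fun s => csp J (Function.update u p s) i x)
      (-cm2 J (Function.update u p t) i p) t :=
  (hasDerivAt_mg J u i p t).const_sub (spin x i)

/-- The fifth joint cumulant. -/
noncomputable def cm5 (J : Mat m) (u : Vec m) : Fin m → Fin m → Fin m → Mat m :=
  fun i j k l p =>
    (ev J u fun x => csp J u i x * csp J u j x * csp J u k x * csp J u l x * csp J u p x) -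
      cm2 J u i p * cm3 J u j k l - cm2 J u j p * cm3 J u i k l - cm2 J u k p * cm3 J u i j l -
      cm2 J u l p * cm3 J u i j k - cm3 J u i j p * cm2 J u k l - cm2 J u i j * cm3 J u k l p -
      cm3 J u i k p * cm2 J u j l - cm2 J u i k * cm3 J u j l p - cm3 J u i l p * cm2 J u j k -
      cm2 J u i l * cm3 J u j k p

lemma hasDerivAt_cm4 (J : Mat m) (u : Vec m) (i j k l p : Fin m) (t : ℝ) :
    HasDerivAt (fun s => cm4 J (Function.update u p s) i j k l)
      (cm5 J (Function.update u p t) i j k l p) t := by
  have c := fun a b => hasDerivAt_cm2 J u a b p t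
  have d := fun a x => hasDerivAt_csp J u a p x t
  refine ((((hasDerivAt_ev_moving J u p fun x =>
    (((d i x).mul (d j x)).mul (d k x)).mul (d l x)).sub ((c i j).mul (c k l))).sub
    ((c i k).mul (c j l))).sub ((c i l).mul (c j k))).congr_deriv ?_
  set w := Function.update u p t
  simp only [cm5, Pi.mul_apply]
  have e : (fun x => ((-cm2 J w i p * csp J w j x + csp J w i x * -cm2 J w j p) * csp J w k x +
      csp J w i x * csp J w j x * -cm2 J w k p) * csp J w l x +
      csp J w i x * csp J w j x * csp J w k x * -cm2 J w l p) = fun x =>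
      -cm2 J w i p * (csp J w j x * csp J w k x * csp J w l x) +
      -cm2 J w j p * (csp J w i x * csp J w k x * csp J w l x) +
      -cm2 J w k p * (csp J w i x * csp J w j x * csp J w l x) +
      -cm2 J w l p * (csp J w i x * csp J w j x * csp J w k x) := funext fun x => by ring
  rw [e]
  simp only [ev_add, ev_smul]
  simp only [cm3]
  ring

lemma cm5_swap45 (J : Mat m) (u : Vec m) (i j k l p : Fin m) :
    cm5 J u i j k l p = cm5 J u i j k p l := by
  simp only [cm5, mul_right_comm _ (csp J u l _) (csp J u p _), cm2_comm J u p l,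
    cm3_swap23 J u i p l, cm3_swap23 J u j p l, cm3_swap23 J u k p l]
  ring

lemma abs_cm5_le (J : Mat m) (u : Vec m) (i j k l p : Fin m) : |cm5 J u i j k l p| ≤ 352 := by
  have h5 : |ev J u fun x =>
      csp J u i x * csp J u j x * csp J u k x * csp J u l x * csp J u p x| ≤ 32 :=
    abs_ev_le fun x => by
      simp only [abs_mul]
      calc |csp J u i x| * |csp J u j x| * |csp J u k x| * |csp J u l x| * |csp J u p x|
          ≤ 2 * 2 * 2 * 2 * 2 := by gcongr <;> exact abs_csp_le ..
        _ = 32 := by norm_num
  have h : ∀ a b c d e : Fin m, |cm2 J u a b * cm3 J u c d e| ≤ 32 ∧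
      |cm3 J u c d e * cm2 J u a b| ≤ 32 := fun a b c d e => by
    have : |cm2 J u a b| * |cm3 J u c d e| ≤ 4 * 8 := by
      gcongr
      · exact abs_cm2_le ..
      · exact abs_cm3_le ..
    constructor <;> · rw [abs_mul]; linarith
  simp only [cm5, abs_le] at h5 ⊢
  have a := fun a b c d e => abs_le.1 (h a b c d e).1
  have a' := fun a b c d e => abs_le.1 (h a b c d e).2
  constructor <;>
    linarith [h5.1, h5.2, (a i p j k l).1, (a i p j k l).2, (a j p i k l).1, (a j p i k l).2,
      (a k p i j l).1, (a k p i j l).2, (a l p i j k).1, (a l p i j k).2, (a' k l i j p).1,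
      (a' k l i j p).2, (a i j k l p).1, (a i j k l p).2, (a' j l i k p).1, (a' j l i k p).2,
      (a i k j l p).1, (a i k j l p).2, (a' j k i l p).1, (a' j k i l p).2, (a i l j k p).1,
      (a i l j k p).2]

lemma continuous_cm5 (i j k l p : Fin m) :
    Continuous fun q : Mat m × Vec m => cm5 q.1 q.2 i j k l p := by
  have hmu : ∀ x : Conf m, Continuous fun q : Mat m × Vec m => mu q.1 q.2 x := fun x => by
    simp only [mu, wt, expo]
    exact Continuous.div₀ (by fun_prop) (by fun_prop) fun z =>
      (sum_pos (fun y _ => Real.exp_pos _) univ_nonempty).ne'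
  have hc : ∀ (a : Fin m) (x : Conf m), Continuous fun q : Mat m × Vec m => csp q.1 q.2 a x :=
    fun a x => continuous_const.sub (continuous_mg a)
  have c2 := fun a b => continuous_cm2 (m := m) a b
  have c3 := fun a b c => continuous_cm3 (m := m) a b c
  simp only [cm5, ev]
  fun_prop

lemma hasDerivAt_cm4_line (J : Mat m) (u a : Vec m) (i j k l : Fin m) (t : ℝ) :
    HasDerivAt (fun s => cm4 J (u + s • a) i j k l)
      (∑ p, a p * cm5 J (u + t • a) i j k l p) t := by
  refine (Weak.hasDerivAt_line (F := fun w => cm4 J w i j k l) (D := fun p w => cm5 J w i j k l p)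
    (fun p => (continuous_cm5 i j k l p).comp (f := fun w : Vec m => (J, w)) (by fun_prop))
    (fun p g s => hasDerivAt_cm4 J g i j k l p s) (c := fun s => u + s • a) (c' := a) (t := t)
    fun p => ?_).congr_deriv (sum_congr rfl fun p _ => mul_comm _ _)
  simpa using ((hasDerivAt_id t).mul_const (a p)).const_add (u p)

end Vale.Agent.P150.Weak.Resp
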