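import Vale.Agent.P150.Weak.Rec.Row
import Vale.Agent.P150.Weak.Spec

/-!
What the error of linear response needs from a subsystem whose fields are shifted by a row.
-/

open MeasureTheory ProbabilityTheory

namespace Vale.Agent.P150.Weak.Resp

open Gap

variable {m : ℕ}

/-- The mean over the subsystem at fields `h + s v + √v r`. -/
noncomputable def shEv (b : ℝ) (n : ℕ) (τ s : ℝ) (φ : Mat m → Vec m → ℝ) : ℝ :=
  ∫ g, ∫ r, φ (plJ (b ^ 2 / n) g)
    (plU τ g + fun k => s * (b ^ 2 / n) + √(b ^ 2 / n) * r k) ∂gauss (Fin m) ∂gauss (Idx m)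

/-- The three observables whose size governs the error at a row are at most `P`. -/
def Inputs (b : ℝ) (n m : ℕ) (τ P : ℝ) : Prop :=
  ∀ s : ℝ, |s| ≤ 1 →
    shEv b n τ s (fun (J : Mat m) u => sq4 (cm4 J u)) ≤ P ∧
    shEv b n τ s (fun (J : Mat m) u => sq2 (gradV J u)) ≤ P ∧
    shEv b n τ s (fun (J : Mat m) u => sq2 (app (cm3 J u) fun _ => 1)) ≤ P

end Vale.Agent.P150.Weak.Resp
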