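import Vale.Agent.P150.Weak.Upd
import Vale.Agent.P150.Weak.Resp.Inputs
import Vale.Agent.P150.Weak.Gauss.Delta

/-!
Half sums and half differences of an observable as functions of the row, and their averages over
the subsystem.
-/

open MeasureTheory ProbabilityTheory Finset Real

namespace Vale.Agent.P150.Weak.Resp

open Gap Rec

variable {m : ℕ} {κ α : Type*} [Fintype κ] [Fintype α]

/-- Half the difference of `φ` at `h + x` and `h - x`, `x = v + √v r`. -/
noncomputable def hd (v : ℝ) (φ : Mat m → Vec m → ℝ) (G : Mat m) (h : Vec m) (r : Fin m → ℝ) : ℝ :=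
  (φ G (h + rv v r) - φ G (h - rv v r)) / 2

/-- Half the sum of `φ` at `h + x` and `h - x`. -/
noncomputable def hs (v : ℝ) (φ : Mat m → Vec m → ℝ) (G : Mat m) (h : Vec m) (r : Fin m → ℝ) : ℝ :=
  (φ G (h + rv v r) + φ G (h - rv v r)) / 2

variable {φ : Mat m → Vec m → ℝ} {v : ℝ} {G : Mat m} {h : Vec m}

lemma tame_comp (hφ : Bd φ) (c : ℝ) :
    Tame fun r : Fin m → ℝ => φ G (h + fun k => c + √v * r k) := by
  obtain ⟨hc, B, hB⟩ := hφ
  exact Tame.of_bounded (hc.comp (f := fun r : Fin m → ℝ => (G, h + fun k => c + √v * r k))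
    (by fun_prop)) fun r => hB _ _

lemma tame_plus (hφ : Bd φ) : Tame fun r : Fin m → ℝ => φ G (h + rv v r) := tame_comp hφ v

lemma tame_minus (hφ : Bd φ) : Tame fun r : Fin m → ℝ => φ G (h - rv v r) := by
  obtain ⟨hc, B, hB⟩ := hφ
  exact Tame.of_bounded (hc.comp (f := fun r : Fin m → ℝ => (G, h - rv v r))
    (by unfold rv; fun_prop)) fun r => hB _ _

lemma tame_hd (hφ : Bd φ) : Tame (hd v φ G h) := by
  simpa only [hd, div_eq_mul_inv] using!
    ((tame_plus hφ).sub (tame_minus hφ)).mul (Tame.const _)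

lemma tame_hs (hφ : Bd φ) : Tame (hs v φ G h) := by
  simpa only [hs, div_eq_mul_inv] using!
    ((tame_plus hφ).add (tame_minus hφ)).mul (Tame.const _)

lemma hd_sum {β : Type*} {s : Finset β} {ψ : β → Mat m → Vec m → ℝ} (r : Fin m → ℝ) :
    hd v (fun J u => ∑ a ∈ s, ψ a J u) G h r = ∑ a ∈ s, hd v (ψ a) G h r := by
  simp only [hd, ← sum_sub_distrib, sum_div]

lemma hs_sum {β : Type*} {s : Finset β} {ψ : β → Mat m → Vec m → ℝ} (r : Fin m → ℝ) :
    hs v (fun J u => ∑ a ∈ s, ψ a J u) G h r = ∑ a ∈ s, hs v (ψ a) G h r := by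
  simp only [hs, ← sum_add_distrib, sum_div]

lemma hd_const_mul (c : ℝ) (r : Fin m → ℝ) :
    hd v (fun J u => c * φ J u) G h r = c * hd v φ G h r := by simp only [hd]; ring

lemma hs_const_mul (c : ℝ) (r : Fin m → ℝ) :
    hs v (fun J u => c * φ J u) G h r = c * hs v φ G h r := by simp only [hs]; ring

lemma hd_sq_le_hs (ψ : κ → Mat m → Vec m → ℝ) (r : Fin m → ℝ) :
    ∑ a, hd v (ψ a) G h r ^ 2 ≤ hs v (fun J u => ∑ a, ψ a J u ^ 2) G h r := by
  rw [hs_sum]
  exact sum_le_sum fun a _ => by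
    simp only [hd, hs]; nlinarith [sq_nonneg (ψ a G (h + rv v r) + ψ a G (h - rv v r))]

lemma hs_sq_le_hs (ψ : κ → Mat m → Vec m → ℝ) (r : Fin m → ℝ) :
    ∑ a, hs v (ψ a) G h r ^ 2 ≤ hs v (fun J u => ∑ a, ψ a J u ^ 2) G h r := by
  rw [hs_sum]
  exact sum_le_sum fun a _ => by
    simp only [hs]; nlinarith [sq_nonneg (ψ a G (h + rv v r) - ψ a G (h - rv v r))]

section deriv

variable {f : κ → Mat m → Vec m → ℝ} {D : κ → Fin m → Mat m → Vec m → ℝ}

omit [Fintype κ] in
lemma hasDerivAt_hd (hl : LineDer f D) (v : ℝ) (G : Mat m) (h : Vec m) (k : Fin m) (a : κ)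
    (r : Fin m → ℝ) (t : ℝ) :
    HasDerivAt (fun s => hd v (f a) G h (Function.update r k s))
      (√v * hs v (D a k) G h (Function.update r k t)) t := by
  simp only [hd, hs]
  convert hasDerivAt_half hl v G h k a r t

omit [Fintype κ] in
lemma hasDerivAt_hs (hl : LineDer f D) (v : ℝ) (G : Mat m) (h : Vec m) (k : Fin m) (a : κ)
    (r : Fin m → ℝ) (t : ℝ) :
    HasDerivAt (fun s => hs v (f a) G h (Function.update r k s))
      (√v * hd v (D a k) G h (Function.update r k t)) t := by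
  set c : Vec m := Pi.single k (√v)
  set w := rv v (Function.update r k t)
  have e : ∀ s, rv v (Function.update r k s) = w + (s - t) • c := fun s => by
    funext j
    simp only [rv, w, c, Pi.add_apply, Pi.smul_apply, smul_eq_mul]
    rcases eq_or_ne j k with rfl | hj
    · simp; ring
    · simp [hj]
  have hsum : ∀ u, ∑ j, c j * D a j G u = √v * D a k G u := fun u => by
    simp [c, Pi.single_apply]
  have h1 : HasDerivAt (fun s => f a G (h + w + (s - t) • c)) (√v * D a k G (h + w)) t := by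
    have := HasDerivAt.comp_sub_const t t (hl a G (h + w) c (t - t))
    simpa [hsum, Function.comp_def] using this
  have h2 : HasDerivAt (fun s => f a G (h - w + (s - t) • -c)) (-(√v * D a k G (h - w))) t := by
    have := HasDerivAt.comp_sub_const t t (hl a G (h - w) (-c) (t - t))
    simpa [hsum, Function.comp_def] using this
  have e1 : ∀ s, h + rv v (Function.update r k s) = h + w + (s - t) • c := fun s => by
    rw [e s, add_assoc]
  have e2 : ∀ s, h - rv v (Function.update r k s) = h - w + (s - t) • -c := fun s => by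
    rw [e s]; funext j
    simp only [Pi.sub_apply, Pi.add_apply, Pi.smul_apply, Pi.neg_apply, smul_eq_mul]; ring
  simp only [hs, hd, e1, e2, sub_self, zero_smul, add_zero]
  refine ((h1.add h2).div_const 2).congr_deriv ?_
  ring

omit [Fintype κ] in
/-- Sums of a family. -/
lemma lineDer_sum {f : κ × α → Mat m → Vec m → ℝ} {D : κ × α → Fin m → Mat m → Vec m → ℝ}
    (hl : LineDer f D) :
    LineDer (fun a J u => ∑ x, f (a, x) J u) fun a k J u => ∑ x, D (a, x) k J u := fun a J u c t =>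
  (HasDerivAt.fun_sum fun x _ => hl (a, x) J u c t).congr_deriv (by
    rw [sum_comm]; simp only [mul_sum])

end deriv

/-- The Poincaré inequality for tame families. -/
lemma pv {ι : Type*} [Fintype ι] [DecidableEq ι] {F : κ → (ι → ℝ) → ℝ}
    {D : ι → κ → (ι → ℝ) → ℝ} (hF : ∀ a, Tame (F a)) (hD : ∀ i a, Tame (D i a))
    (hd : ∀ i a g t,
      HasDerivAt (fun s => F a (Function.update g i s)) (D i a (Function.update g i t)) t) :
    ∫ g, ∑ a, F a g ^ 2 ∂gauss ι ≤
      ∑ a, (∫ g, F a g ∂gauss ι) ^ 2 + ∫ g, ∑ a, ∑ i, D i a g ^ 2 ∂gauss ι :=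
  poincare_vec (F := F) (D := D) (fun a => (hF a).1) (fun a => (hF a).memLp_two)
    (fun i a => (hD i a).1) (fun i a g t => by simpa only [update_eq_upd] using hd i a g t)
    fun i a => ((hD i a).pow 2).integrable

/-- A half difference in mean square, given the subsystem. -/
lemma hd_sq_le {f : κ → Mat m → Vec m → ℝ} {D : κ → Fin m → Mat m → Vec m → ℝ}
    (hv : 0 ≤ v) (hf : ∀ a, Bd (f a)) (hD : ∀ a k, Bd (D a k)) (hl : LineDer f D) :
    ∫ r, ∑ a, hd v (f a) G h r ^ 2 ∂gauss (Fin m) ≤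
      v ^ 2 / 2 * (∫ r, ∫ s, tot D G (h + fun k => s * v + √v * r k) ∂seg ∂gauss (Fin m)) +
        v * ∫ r, hs v (fun J u => ∑ a, ∑ k, D a k J u ^ 2) G h r ∂gauss (Fin m) := by
  refine (pv (fun a => tame_hd (hf a)) (fun k a => (Tame.const √v).mul (tame_hs (hD a k)))
    fun k a r t => hasDerivAt_hd hl v G h k a r t).trans
    (add_le_add (mean_row_le hf hD hl v G h) ?_)
  rw [← integral_const_mul]
  refine integral_mono (Tame.sum fun a _ => Tame.sum fun k _ =>
      ((Tame.const √v).mul (tame_hs (hD a k))).pow 2).integrable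
    ((tame_hs (Bd.sum fun a => Bd.sum fun k => (hD a k).pow 2)).integrable.const_mul _) fun r => ?_
  simp only [mul_pow, sq_sqrt hv, ← mul_sum]
  refine mul_le_mul_of_nonneg_left ?_ hv
  rw [hs_sum]
  exact sum_le_sum fun a _ => hs_sq_le_hs (fun k => D a k) r

section average

variable {b : ℝ} {n : ℕ} {τ : ℝ} {ψ : Mat m → Vec m → ℝ}

/-- The average over the row of a half sum, given the subsystem. -/
noncomputable def A1 (b : ℝ) (n : ℕ) (τ : ℝ) (ψ : Mat m → Vec m → ℝ) (g : Idx m → ℝ) : ℝ :=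
  ∫ r, hs (b ^ 2 / n) ψ (plJ (b ^ 2 / n) g) (plU τ g) r ∂gauss (Fin m)

/-- The average over the row and the segment of translations, given the subsystem. -/
noncomputable def A2 (b : ℝ) (n : ℕ) (τ : ℝ) (ψ : Mat m → Vec m → ℝ) (g : Idx m → ℝ) : ℝ :=
  ∫ r, ∫ s, ψ (plJ (b ^ 2 / n) g)
    (plU τ g + fun k => s * (b ^ 2 / n) + √(b ^ 2 / n) * r k) ∂seg ∂gauss (Fin m)

lemma integrable_segProd (hψ : Bd ψ) :
    Integrable (fun q : ((Idx m → ℝ) × (Fin m → ℝ)) × ℝ => ψ (plJ (b ^ 2 / n) q.1.1)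
      (plU τ q.1.1 + fun k => q.2 * (b ^ 2 / n) + √(b ^ 2 / n) * q.1.2 k))
      (((gauss (Idx m)).prod (gauss (Fin m))).prod seg) := by
  obtain ⟨hc, B, hB⟩ := hψ
  refine Integrable.of_bound (Continuous.aestronglyMeasurable ?_) B (ae_of_all _ fun q => hB _ _)
  exact hc.comp (f := fun q : ((Idx m → ℝ) × (Fin m → ℝ)) × ℝ => (plJ (b ^ 2 / n) q.1.1,
    plU τ q.1.1 + fun k => q.2 * (b ^ 2 / n) + √(b ^ 2 / n) * q.1.2 k))
    (((continuous_plJ _).comp (continuous_fst.comp continuous_fst)).prodMk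
      (((continuous_plU τ).comp (continuous_fst.comp continuous_fst)).add (by fun_prop)))

lemma integrable_A2 (hψ : Bd ψ) : Integrable (A2 b n τ ψ) (gauss (Idx m)) :=
  (integrable_segProd hψ).integral_prod_left.integral_prod_left

lemma A2_le (hψ : Bd ψ) {P : ℝ} (hP : ∀ s : ℝ, |s| ≤ 1 → shEv b n τ s ψ ≤ P) :
    ∫ g, A2 b n τ ψ g ∂gauss (Idx m) ≤ 2 * P := by
  have hi := integrable_segProd (b := b) (n := n) (τ := τ) hψ
  simp only [A2]
  rw [← integral_prod (fun q : (Idx m → ℝ) × (Fin m → ℝ) => ∫ s, ψ (plJ (b ^ 2 / n) q.1)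
      (plU τ q.1 + fun k => s * (b ^ 2 / n) + √(b ^ 2 / n) * q.2 k) ∂seg) hi.integral_prod_left,
    ← integral_prod (fun q : ((Idx m → ℝ) × (Fin m → ℝ)) × ℝ => ψ (plJ (b ^ 2 / n) q.1.1)
      (plU τ q.1.1 + fun k => q.2 * (b ^ 2 / n) + √(b ^ 2 / n) * q.1.2 k)) hi,
    integral_prod_symm _ hi]
  refine (integral_mono_ae hi.integral_prod_right (integrable_const P) ?_).trans_eq ?_
  · filter_upwards [ae_restrict_mem (measurableSet_Ioc (a := (-1:ℝ)) (b := 1))] with s hs
    rw [integral_prod _ (integrable_comp_fields hψ _ τ (s * (b ^ 2 / n)))]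
    exact hP s (abs_le.2 ⟨hs.1.le, hs.2⟩)
  · simp [seg]; norm_num

lemma integrable_A1 (hψ : Bd ψ) : Integrable (A1 b n τ ψ) (gauss (Idx m)) := by
  obtain ⟨hc, B, hB⟩ := hψ
  refine Integrable.integral_prod_left (f := fun q : (Idx m → ℝ) × (Fin m → ℝ) =>
    hs (b ^ 2 / n) ψ (plJ (b ^ 2 / n) q.1) (plU τ q.1) q.2) ?_
  refine Integrable.of_bound (Continuous.aestronglyMeasurable ?_) B (ae_of_all _ fun q => ?_)
  · refine ((hc.comp (f := fun q : (Idx m → ℝ) × (Fin m → ℝ) => (plJ (b ^ 2 / n) q.1,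
      plU τ q.1 + rv (b ^ 2 / n) q.2)) ?_).add (hc.comp (f := fun q : (Idx m → ℝ) × (Fin m → ℝ) =>
      (plJ (b ^ 2 / n) q.1, plU τ q.1 - rv (b ^ 2 / n) q.2)) ?_)).div_const 2
    · exact ((continuous_plJ _).comp continuous_fst).prodMk
        (((continuous_plU τ).comp continuous_fst).add (by unfold rv; fun_prop))
    · exact ((continuous_plJ _).comp continuous_fst).prodMk
        (((continuous_plU τ).comp continuous_fst).sub (by unfold rv; fun_prop))
  · have h1 := abs_le.1 (hB (plJ (b ^ 2 / n) q.1) (plU τ q.1 + rv (b ^ 2 / n) q.2))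
    have h2 := abs_le.1 (hB (plJ (b ^ 2 / n) q.1) (plU τ q.1 - rv (b ^ 2 / n) q.2))
    rw [norm_eq_abs, hs, abs_le]; constructor <;> linarith

lemma A1_le (hψ : Bd ψ) {P : ℝ} (hP : ∀ s : ℝ, |s| ≤ 1 → shEv b n τ s ψ ≤ P) :
    ∫ g, A1 b n τ ψ g ∂gauss (Idx m) ≤ P := by
  set v := b ^ 2 / (n:ℝ) with hv
  have e : ∀ g, A1 b n τ ψ g =
      ((∫ r, ψ (plJ v g) (plU τ g + fun k => 1 * v + √v * r k) ∂gauss (Fin m)) +
        ∫ r, ψ (plJ v g) (plU τ g + fun k => -1 * v + √v * r k) ∂gauss (Fin m)) / 2 := fun g => by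
    rw [A1, ← hv, show (fun r => hs v ψ (plJ v g) (plU τ g) r) = fun r =>
      (ψ (plJ v g) (plU τ g + rv v r) + ψ (plJ v g) (plU τ g - rv v r)) / 2 from rfl,
      integral_div, integral_add (tame_plus hψ).integrable (tame_minus hψ).integrable]
    congr 2
    · refine integral_congr_ae (ae_of_all _ fun r => ?_)
      simp [show rv v r = fun k => v + √v * r k from rfl]
    · rw [← integral_comp_mp (gauss_neg_fin (m := m))
        (F := fun r => ψ (plJ v g) (plU τ g - rv v r)) (tame_minus hψ).1.aestronglyMeasurable]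
      refine integral_congr_ae (ae_of_all _ fun r => ?_)
      dsimp only
      congr 1
      funext a
      simp [rv]; ring
  have i : ∀ c : ℝ, Integrable (fun g => ∫ r, ψ (plJ v g) (plU τ g + fun k => c + √v * r k)
      ∂gauss (Fin m)) (gauss (Idx m)) := fun c =>
    (integrable_comp_fields hψ v τ c).integral_prod_left
  simp only [e]
  rw [integral_div, integral_add (i _) (i _)]
  have h1 := hP 1 (by norm_num)
  have h2 := hP (-1) (by norm_num)
  simp only [shEv, ← hv] at h1 h2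
  linarith

/-- The shifted mean is crude. -/
lemma shEv_crude (hψ : Bd ψ) (hτ : 0 ≤ τ) (hmn : m ≤ n) {s : ℝ} (hs : |s| ≤ 1) :
    shEv b n τ s ψ ≤ exp (2 * b ^ 2) * √(pEv b n m (τ + b ^ 2 / n) fun J u => ψ J u ^ 2) :=
  crude_shift hψ hτ hmn hs

end average

end Vale.Agent.P150.Weak.Resp
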