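import Vale.Agent.P150.Weak.Upd
import Vale.Agent.P150.Weak.Resp.Slice
import Vale.Agent.P150.Weak.Rec.Est
import Vale.Agent.P150.Weak.Gram.Chaos

/-!
The mixed term of linear response against its exact second chaos, given the subsystem.
-/

open MeasureTheory ProbabilityTheory Finset Real

namespace Vale.Agent.P150.Weak.Resp

open Gap Rec

variable {m : ℕ} {v : ℝ}

attribute [local irreducible] cm2 cm3 cm4 mg

/-- The row mean of the half sum of the third cumulant. -/
noncomputable def kK (v : ℝ) (G : Mat m) (h : Vec m) : Fin m → Mat m :=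
  fun a c e => ∫ r, hs v (fun J u => cm3 J u a c e) G h r ∂gauss (Fin m)

lemma kK_symm (v : ℝ) (G : Mat m) (h : Vec m) (a c e : Fin m) :
    kK v G h a c e = kK v G h a e c :=
  integral_congr_ae (ae_of_all _ fun r => by simp only [hs, cm3_swap23 _ _ a e c])

lemma abs_kK_le (v : ℝ) (G : Mat m) (h : Vec m) (a c e : Fin m) : |kK v G h a c e| ≤ 8 := by
  have := norm_integral_le_of_norm_le_const (μ := gauss (Fin m))
    (f := fun r => hs v (fun J u => cm3 J u a c e) G h r) (C := 8) (ae_of_all _ fun r => by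
      have h1 := abs_le.1 (abs_cm3_le G (h + rv v r) a c e)
      have h2 := abs_le.1 (abs_cm3_le G (h - rv v r) a c e)
      rw [norm_eq_abs, hs, abs_le]; constructor <;> linarith)
  rwa [probReal_univ, mul_one] at this

/-- `g - g₀` at a row. -/
noncomputable def qF (v : ℝ) (G : Mat m) (h : Vec m) (a : Fin m) (r : Fin m → ℝ) : ℝ :=
  (∑ c, hd v (fun J u => cm2 J u a c) G h r * (√v * r c)) + 2 * v * hs v (fun J u => vv J u a) G h r -
    ((∑ c, ∑ e, kK v G h a c e * ((√v * r c) * (√v * r e))) - v * ∑ c, kK v G h a c c)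

/-- The field whose divergence is `g - g₀`. -/
noncomputable def qX (v : ℝ) (G : Mat m) (h : Vec m) (a c : Fin m) (r : Fin m → ℝ) : ℝ :=
  hd v (fun J u => cm2 J u a c) G h r - √v * ∑ e, kK v G h a c e * r e

/-- The derivative of `qX`. -/
noncomputable def qD (v : ℝ) (G : Mat m) (h : Vec m) (a d c : Fin m) (r : Fin m → ℝ) : ℝ :=
  √v * (hs v (fun J u => cm3 J u a c d) G h r - kK v G h a c d)

lemma qF_eq (hv : 0 ≤ v) (G : Mat m) (h : Vec m) (a : Fin m) (r : Fin m → ℝ) :
    qF v G h a r = √v * gDelta (qX v G h a) (qD v G h a) r := by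
  set s := √v with hsdef
  have hs2 : v = s * s := (mul_self_sqrt hv).symm
  have e : ∑ c, hs v (fun J u => cm3 J u a c c) G h r =
      -2 * hs v (fun J u => vv J u a) G h r := by
    rw [← hs_sum, ← hs_const_mul]
    simp only [hs, ← sum_cm3_diag, cm3_swap12 _ _ a, cm3_swap23 _ _ _ a]
  have e' : ∑ c, (hs v (fun J u => cm3 J u a c c) G h r - kK v G h a c c) =
      -2 * hs v (fun J u => vv J u a) G h r - ∑ c, kK v G h a c c := by rw [sum_sub_distrib, e]
  simp only [qF, gDelta, qX, qD, ← hsdef, sum_sub_distrib, mul_sub, ← mul_sum]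
  rw [e]
  have e1 : ∑ c, hd v (fun J u => cm2 J u a c) G h r * (s * r c) =
      s * ∑ c, r c * hd v (fun J u => cm2 J u a c) G h r := by
    rw [mul_sum]; exact sum_congr rfl fun c _ => by ring
  have e2 : ∑ c, ∑ e, kK v G h a c e * ((s * r c) * (s * r e)) =
      s * ∑ c, r c * (s * ∑ e, kK v G h a c e * r e) := by
    simp only [mul_sum]
    exact sum_congr rfl fun c _ => sum_congr rfl fun e _ => by ring
  rw [e1, e2, hs2]
  ring

lemma tame_qX (v : ℝ) (G : Mat m) (h : Vec m) (a c : Fin m) : Tame (qX v G h a c) :=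
  (tame_hd (bd_cm2 a c)).sub
    ((Tame.const _).mul (Tame.sum fun e _ => (Tame.const _).mul (Tame.coord e)))

lemma tame_qD (v : ℝ) (G : Mat m) (h : Vec m) (a d c : Fin m) : Tame (qD v G h a d c) :=
  (Tame.const _).mul ((tame_hs (bd_cm3 a c d)).sub (Tame.const _))

lemma hasDerivAt_qX (G : Mat m) (h : Vec m) (a d c : Fin m) (r : Fin m → ℝ) (t : ℝ) :
    HasDerivAt (fun s => qX v G h a c (Function.update r d s))
      (qD v G h a d c (Function.update r d t)) t := by
  have h1 := hasDerivAt_hd (f := fun (ac : Fin m × Fin m) J u => cm2 J u ac.1 ac.2)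
    (D := fun ac k J u => cm3 J u ac.1 ac.2 k)
    (fun ac G u c t => hasDerivAt_cm2_line G u c _ _ t) v G h d (a, c) r t
  have h2 := Gram.hasDerivAt_linV (fun (p : Fin m) e => kK v G h a p e) c r d t
  simp only [Gram.linV] at h2
  have h3 := h1.sub (h2.const_mul (√v))
  simp only [qX]
  refine HasDerivAt.congr_deriv (f' := √v * hs v (fun J u => cm3 J u a c d) G h
    (Function.update r d t) - √v * kK v G h a c d) ?_ ?_
  · convert h3 using 1
    funext s
    simp only [Pi.sub_apply, update_eq_upd]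
  · simp only [qD]; ring

lemma hasDerivAt_qD (hv : 0 ≤ v) (G : Mat m) (h : Vec m) (a e d c : Fin m) (r : Fin m → ℝ)
    (t : ℝ) : HasDerivAt (fun s => qD v G h a d c (Function.update r e s))
      (v * hd v (fun J u => cm4 J u a c d e) G h (Function.update r e t)) t := by
  have h1 := hasDerivAt_hs (f := fun (q : Fin m × Fin m × Fin m) J u => cm3 J u q.1 q.2.1 q.2.2)
    (D := fun q k J u => cm4 J u q.1 q.2.1 q.2.2 k)
    (fun q G u c t => hasDerivAt_cm3_line G u c _ _ _ t) v G h e (a, c, d) r t
  refine ((h1.sub_const _).const_mul (√v)).congr_deriv ?_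
  rw [← mul_assoc, mul_self_sqrt hv]

/-- **`g - g₀` in mean square, given the subsystem.** -/
theorem qF_le (hv : 0 ≤ v) (G : Mat m) (h : Vec m) :
    ∫ r, ∑ a, qF v G h a r ^ 2 ∂gauss (Fin m) ≤
      v ^ 3 / 2 * (∫ r, ∫ s, sq2 (app (cm3 G (h + fun k => s * v + √v * r k)) fun _ => 1)
          ∂seg ∂gauss (Fin m)) +
        2 * v ^ 3 * ∫ r, hs v (fun J u => sq4 (cm4 J u)) G h r ∂gauss (Fin m) := by
  set W := ∫ r, ∑ a, ∑ d, ∑ c, qD v G h a d c r ^ 2 ∂gauss (Fin m) with hW
  set P4 := ∫ r, hs v (fun J u => sq4 (cm4 J u)) G h r ∂gauss (Fin m) with hP4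
  set S1 := ∫ r, ∫ s, sq2 (app (cm3 G (h + fun k => s * v + √v * r k)) fun _ => 1)
    ∂seg ∂gauss (Fin m) with hS1
  have hb4 : Bd fun (J : Mat m) u => sq4 (cm4 J u) :=
    Bd.sum fun a => Bd.sum fun c => Bd.sum fun d => Bd.sum fun e => (bd_cm4 a c d e).pow 2
  have hmain : ∫ r, ∑ a, qF v G h a r ^ 2 ∂gauss (Fin m) ≤
      v * ((∫ r, ∑ a, ∑ c, qX v G h a c r ^ 2 ∂gauss (Fin m)) + W) := by
    simp only [qF_eq hv, mul_pow, sq_sqrt hv, ← mul_sum, integral_const_mul]
    refine mul_le_mul_of_nonneg_left ?_ hv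
    exact integral_sum_gDelta_sq_le (X := qX v G h) (D := qD v G h)
      (D2 := fun a e d c r => v * hd v (fun J u => cm4 J u a c d e) G h r)
      (fun a c => (tame_qX v G h a c).1) (fun a d c => (tame_qD v G h a d c).1)
      (fun a e d c => continuous_const.mul (tame_hd (bd_cm4 a c d e)).1)
      (fun a c => (tame_qX v G h a c).2) (fun a d c => (tame_qD v G h a d c).2)
      (fun a e d c => ((Tame.const v).mul (tame_hd (bd_cm4 a c d e))).2)
      (fun a d c g t => by simpa only [update_eq_upd] using hasDerivAt_qX G h a d c g t)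
      (fun a e d c g t => by simpa only [update_eq_upd] using hasDerivAt_qD hv G h a e d c g t)
      (fun a e d c g => by simp only [hd, cm4_swap34 _ _ a c e d])
  have hX : ∫ r, ∑ a, ∑ c, qX v G h a c r ^ 2 ∂gauss (Fin m) ≤ v ^ 2 / 2 * S1 + W := by
    have hp := pv (F := fun (ac : Fin m × Fin m) r => qX v G h ac.1 ac.2 r)
      (D := fun d ac r => qD v G h ac.1 d ac.2 r) (fun ac => tame_qX v G h _ _)
      (fun d ac => tame_qD v G h _ _ _) fun d ac g t => hasDerivAt_qX G h _ d _ g t
    simp only [Fintype.sum_prod_type] at hp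
    refine hp.trans (add_le_add ?_ (le_of_eq ?_))
    · have hm := mean_row_le (φ := fun (q : Fin m × Fin m) J u => cm2 J u q.1 q.2)
        (D := fun q k J u => cm3 J u q.1 q.2 k) (fun q => bd_cm2 _ _) (fun q k => bd_cm3 _ _ _)
        (fun q G u c t => hasDerivAt_cm2_line G u c _ _ t) v G h
      simp only [Fintype.sum_prod_type] at hm
      have e : ∀ a c, ∫ r, qX v G h a c r ∂gauss (Fin m) =
          ∫ r, hd v (fun J u => cm2 J u a c) G h r ∂gauss (Fin m) := fun a c => by
        simp only [qX]
        rw [integral_sub (tame_hd (bd_cm2 a c)).integrable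
          ((Tame.const _).mul (Tame.sum fun e _ => (Tame.const _).mul (Tame.coord e))).integrable,
          integral_const_mul, integral_finsetSum _ fun e _ =>
            ((Tame.const _).mul (Tame.coord e)).integrable]
        simp [integral_const_mul, Gram.integral_coord]
      simp only [e]
      refine hm.trans (le_of_eq ?_)
      rw [hS1]
      congr 1
      refine integral_congr_ae (ae_of_all _ fun r => integral_congr_ae (ae_of_all _ fun s => ?_))
      simp only [tot, sq2, app, Fintype.sum_prod_type, one_mul]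
      refine sum_congr rfl fun a _ => sum_congr rfl fun c _ => ?_
      congr 1
      exact sum_congr rfl fun k _ => by rw [cm3_swap23, cm3_swap12]
    · refine integral_congr_ae (ae_of_all _ fun r => sum_congr rfl fun a _ => ?_)
      exact sum_comm
  have hD : W ≤ v ^ 2 * P4 := by
    have hp := pv (F := fun (q : Fin m × Fin m × Fin m) r => qD v G h q.1 q.2.1 q.2.2 r)
      (D := fun e q r => v * hd v (fun J u => cm4 J u q.1 q.2.2 q.2.1 e) G h r)
      (fun q => tame_qD v G h _ _ _) (fun e q => (Tame.const v).mul (tame_hd (bd_cm4 _ _ _ _)))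
      fun e q g t => hasDerivAt_qD hv G h _ e _ _ g t
    have hmean : ∀ a d c, ∫ r, qD v G h a d c r ∂gauss (Fin m) = 0 := fun a d c => by
      simp only [qD]
      rw [integral_const_mul, integral_sub (tame_hs (bd_cm3 a c d)).integrable (integrable_const _),
        integral_const, probReal_univ, one_smul]
      simp [kK]
    simp only [hmean, zero_pow two_ne_zero, sum_const_zero, zero_add, Fintype.sum_prod_type] at hp
    refine hp.trans ?_
    rw [hP4, ← integral_const_mul]
    refine integral_mono (Tame.sum fun a _ => Tame.sum fun d _ => Tame.sum fun c _ =>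
        Tame.sum fun e _ => ((Tame.const v).mul (tame_hd (bd_cm4 a c d e))).pow 2).integrable
      ((tame_hs hb4).integrable.const_mul _) fun r => ?_
    simp only [mul_pow, ← mul_sum]
    refine mul_le_mul_of_nonneg_left ?_ (sq_nonneg v)
    have h4 := hd_sq_le_hs (v := v) (G := G) (h := h)
      (fun (q : Fin m × Fin m × Fin m × Fin m) J u => cm4 J u q.1 q.2.2.1 q.2.1 q.2.2.2) r
    simp only [Fintype.sum_prod_type] at h4
    refine h4.trans (le_of_eq ?_)
    congr 1
    funext J u
    simp only [sq4, sq2]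
    exact sum_congr rfl fun a _ => sum_comm
  refine hmain.trans ((mul_le_mul_of_nonneg_left (add_le_add hX le_rfl) hv).trans ?_)
  nlinarith [mul_le_mul_of_nonneg_left hD hv]

end Vale.Agent.P150.Weak.Resp
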