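import Vale.Agent.P150.Weak.Upd
import Vale.Agent.P150.Weak.Resp.Slice
import Vale.Agent.P150.Weak.Resp.Five
import Vale.Agent.P150.Weak.Rec.Est
import Vale.Agent.P150.Weak.Gram.Chaos

/-!
`r = d - bar C J` at a row, given the subsystem.
-/

open MeasureTheory ProbabilityTheory Finset Real

namespace Vale.Agent.P150.Weak.Resp

open Gap Rec

variable {m : ℕ} {v : ℝ}

attribute [local irreducible] cm2 cm3 cm4 cm5 mg vv gradV

/-- `r` at a row. -/
noncomputable def rF (v : ℝ) (G : Mat m) (h : Vec m) (a : Fin m) (r : Fin m → ℝ) : ℝ :=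
  hd v (fun J u => mg J u a) G h r - ∑ c, hs v (fun J u => cm2 J u a c) G h r * rv v r c

/-- The derivative of `r`. -/
noncomputable def rD (v : ℝ) (G : Mat m) (h : Vec m) (k a : Fin m) (r : Fin m → ℝ) : ℝ :=
  -(√v * ∑ c, hd v (fun J u => cm3 J u a c k) G h r * rv v r c)

/-- `T[1,1]` at a site. -/
noncomputable def t11 (J : Mat m) (u : Vec m) (a : Fin m) : ℝ := ∑ c, ∑ e, cm3 J u a c e

/-- `T4[1]` in a pair of sites. -/
noncomputable def t41 (J : Mat m) (u : Vec m) (a k : Fin m) (l : Fin m) : ℝ :=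
  ∑ c, cm4 J u a c k l

lemma bd_t11 (a : Fin m) : Bd fun J u => t11 J u a := Bd.sum fun c => Bd.sum fun e => bd_cm3 a c e

lemma bd_t41 (a k l : Fin m) : Bd fun J u => t41 J u a k l := Bd.sum fun c => bd_cm4 a c k l

lemma tame_rv (v : ℝ) (c : Fin m) : Tame fun r : Fin m → ℝ => rv v r c :=
  (Tame.const v).add ((Tame.const _).mul (Tame.coord c))

lemma tame_rF (v : ℝ) (G : Mat m) (h : Vec m) (a : Fin m) : Tame (rF v G h a) :=
  (tame_hd (bd_mg a)).sub (Tame.sum fun c _ => (tame_hs (bd_cm2 a c)).mul (tame_rv v c))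

lemma tame_rD (v : ℝ) (G : Mat m) (h : Vec m) (k a : Fin m) : Tame (rD v G h k a) :=
  ((Tame.const _).mul (Tame.sum fun c _ => (tame_hd (bd_cm3 a c k)).mul (tame_rv v c))).neg

lemma hasDerivAt_rF (G : Mat m) (h : Vec m) (k a : Fin m) (r : Fin m → ℝ) (t : ℝ) :
    HasDerivAt (fun s => rF v G h a (Function.update r k s))
      (rD v G h k a (Function.update r k t)) t := by
  have h1 := hasDerivAt_hd (f := fun (a : Fin m) J u => mg J u a)
    (D := fun a k J u => cm2 J u a k) (fun a G u c t => hasDerivAt_mg_line G u c a t) v G h k a r t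
  have h2 : ∀ c, HasDerivAt (fun s => hs v (fun J u => cm2 J u a c) G h (Function.update r k s))
      (√v * hd v (fun J u => cm3 J u a c k) G h (Function.update r k t)) t := fun c =>
    hasDerivAt_hs (f := fun (q : Fin m × Fin m) J u => cm2 J u q.1 q.2)
      (D := fun q k J u => cm3 J u q.1 q.2 k)
      (fun q G u c t => hasDerivAt_cm2_line G u c _ _ t) v G h k (a, c) r t
  have h3 : ∀ c, HasDerivAt (fun s => rv v (Function.update r k s) c)
      (√v * if c = k then 1 else 0) t := fun c =>
    ((by by_cases hc : c = k <;> simpa [hc, update_eq_upd] using Gram.hasDerivAt_coord r k c t : HasDerivAt (fun s => Function.update r k s c)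
      (if c = k then (1:ℝ) else 0) t).const_mul (√v)).const_add v
  refine (h1.sub (HasDerivAt.fun_sum fun c _ => (h2 c).mul (h3 c))).congr_deriv ?_
  simp only [mul_ite, mul_one, mul_zero, sum_add_distrib, sum_ite_eq', mem_univ, if_true, rD,
    mul_sum]
  rw [mul_comm (hs v _ G h _) √v]
  simp only [mul_assoc]
  ring

/-- The integral of `t ψ''` over the segment. -/
lemma seg_second {f f1 f2 : ℝ → ℝ} (hf : ∀ t, HasDerivAt f (f1 t) t)
    (hf1 : ∀ t, HasDerivAt f1 (f2 t) t) (hc : Continuous f2) :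
    f 1 - f (-1) - (f1 1 + f1 (-1)) = -∫ s, s * f2 s ∂seg := by
  have hd : ∀ t ∈ Set.uIcc (-1:ℝ) 1, HasDerivAt (fun s => s * f1 s - f s) (t * f2 t) t :=
    fun t _ => (((hasDerivAt_id t).mul (hf1 t)).sub (hf t)).congr_deriv (by simp)
  have h := intervalIntegral.integral_eq_sub_of_hasDerivAt hd
    ((continuous_id.mul hc).intervalIntegrable _ _)
  rw [intervalIntegral.integral_of_le (by norm_num)] at h
  rw [seg, h]
  ring

/-- The part of the mean of `r` that is a second derivative. -/
lemma second_mean_le (G : Mat m) (h : Vec m) :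
    ∑ a, (∫ r, (hd v (fun J u => mg J u a) G h r -
        v * ∑ c, hs v (fun J u => cm2 J u a c) G h r) ∂gauss (Fin m)) ^ 2 ≤
      v ^ 4 / 2 * ∫ r, ∫ s, (fun J u => ∑ a, t11 J u a ^ 2) G (h + fun k => s * v + √v * r k)
        ∂seg ∂gauss (Fin m) := by
  set μ := gauss (Fin m)
  have hcomp : ∀ {ψ : Mat m → Vec m → ℝ}, Bd ψ →
      Integrable (fun q : (Fin m → ℝ) × ℝ => ψ G (h + fun k => q.2 * v + √v * q.1 k))
        (μ.prod seg) := fun hψ => by
    obtain ⟨B, hB⟩ := hψ.2
    exact Integrable.of_bound (hψ.1.comp (f := fun q : (Fin m → ℝ) × ℝ =>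
      (G, h + fun k => q.2 * v + √v * q.1 k)) (continuous_const.prodMk
        (continuous_const.add (by fun_prop)))).aestronglyMeasurable B (ae_of_all _ fun q => hB _ _)
  have hscomp : ∀ {ψ : Mat m → Vec m → ℝ}, Bd ψ →
      Integrable (fun q : (Fin m → ℝ) × ℝ => q.2 * ψ G (h + fun k => q.2 * v + √v * q.1 k))
        (μ.prod seg) ∧ Integrable (fun q : (Fin m → ℝ) × ℝ =>
          (q.2 * ψ G (h + fun k => q.2 * v + √v * q.1 k)) ^ 2) (μ.prod seg) := fun {ψ} hψ => by
    have hbd : ∀ᵐ q ∂μ.prod seg, |q.2| ≤ 1 := by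
      refine Measure.ae_prod_iff_ae_ae (measurableSet_le (by fun_prop) measurable_const) |>.2 ?_
      refine ae_of_all _ fun r => ?_
      filter_upwards [ae_restrict_mem (measurableSet_Ioc (a := (-1:ℝ)) (b := 1))] with s hs
      exact abs_le.2 ⟨hs.1.le, hs.2⟩
    have h1 := hcomp hψ
    have hm : AEStronglyMeasurable (fun q : (Fin m → ℝ) × ℝ =>
        q.2 * ψ G (h + fun k => q.2 * v + √v * q.1 k)) (μ.prod seg) :=
      (continuous_snd.aestronglyMeasurable).mul h1.1
    obtain ⟨B, hB⟩ := hψ.2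
    refine ⟨Integrable.of_bound hm B ?_, Integrable.of_bound (hm.pow 2) (B ^ 2) ?_⟩
    · filter_upwards [hbd] with q hq
      rw [norm_eq_abs, abs_mul]
      exact (mul_le_of_le_one_left (abs_nonneg _) hq).trans (hB _ _)
    · filter_upwards [hbd] with q hq
      rw [norm_eq_abs, abs_pow, abs_mul]
      exact pow_le_pow_left₀ (by positivity)
        ((mul_le_of_le_one_left (abs_nonneg _) hq).trans (hB _ _)) 2
  have hone : ∀ a, ∫ r, (hd v (fun J u => mg J u a) G h r -
      v * ∑ c, hs v (fun J u => cm2 J u a c) G h r) ∂μ =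
      -(v ^ 2 / 2) * ∫ q : (Fin m → ℝ) × ℝ,
        q.2 * t11 G (h + fun k => q.2 * v + √v * q.1 k) a ∂μ.prod seg := by
    intro a
    set N := fun (c : ℝ) (r : Fin m → ℝ) =>
      mg G (h + fun k => c * v + √v * r k) a
    set M := fun (c : ℝ) (r : Fin m → ℝ) =>
      ∑ k, cm2 G (h + fun j => c * v + √v * r j) a k
    have hneg : ∀ (ψ : Mat m → Vec m → ℝ), Bd ψ → ∫ r, ψ G (h - rv v r) ∂μ =
        ∫ r, ψ G (h + fun k => -1 * v + √v * r k) ∂μ := fun ψ hψ => by
      rw [← integral_comp_mp (gauss_neg_fin (m := m))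
        (F := fun r => ψ G (h - rv v r))
        (tame_minus (v := v) (G := G) (h := h) hψ).1.aestronglyMeasurable]
      refine integral_congr_ae (ae_of_all _ fun r => ?_)
      dsimp only
      congr 1
      funext j
      simp [rv]
      ring
    have epos : ∀ r : Fin m → ℝ, rv v r = fun k => 1 * v + √v * r k := fun r => by
      funext k; simp [rv]
    have bC := Bd.sum (s := (univ : Finset (Fin m))) fun c => bd_cm2 a c
    have iN : ∀ c, Integrable (N c) μ := fun c => (tame_comp (bd_mg a) (c * v)).integrable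
    have iM : ∀ c, Integrable (M c) μ := fun c => (tame_comp bC (c * v)).integrable
    have key : ∀ r, N 1 r - N (-1) r - v * (M 1 r + M (-1) r) =
        -v ^ 2 * ∫ s, s * t11 G (h + fun k => s * v + √v * r k) a ∂seg := by
      intro r
      set w : Vec m := h + fun k => √v * r k
      have e : ∀ s : ℝ, (h + fun k => s * v + √v * r k) = w + s • fun _ => v := fun s => by
        funext k; simp only [w, Pi.add_apply, Pi.smul_apply, smul_eq_mul]; ring
      have hs := seg_second (f := fun s => mg G (w + s • fun _ => v) a)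
        (f1 := fun s => ∑ k, v * cm2 G (w + s • fun _ => v) a k)
        (f2 := fun s => ∑ k, v * ∑ l, v * cm3 G (w + s • fun _ => v) a k l)
        (fun t => hasDerivAt_mg_line G w (fun _ => v) a t)
        (fun t => HasDerivAt.fun_sum fun k _ =>
          (hasDerivAt_cm2_line G w (fun _ => v) a k t).const_mul v)
        (continuous_finsetSum _ fun k _ => continuous_const.mul (continuous_finsetSum _ fun l _ =>
          continuous_const.mul ((continuous_cm3 a k l).comp
            (f := fun s : ℝ => (G, w + s • fun _ : Fin m => v)) (by fun_prop))))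
      simp only [N, M, e, mul_add, mul_sum]
      refine hs.trans ?_
      rw [← integral_neg, ← integral_const_mul]
      refine integral_congr_ae (ae_of_all _ fun s => ?_)
      simp only [t11, mul_sum, ← sum_neg_distrib]
      exact sum_congr rfl fun k _ => sum_congr rfl fun l _ => by ring
    have hL : ∫ r, (hd v (fun J u => mg J u a) G h r -
        v * ∑ c, hs v (fun J u => cm2 J u a c) G h r) ∂μ =
        1 / 2 * ∫ r, (N 1 r - N (-1) r - v * (M 1 r + M (-1) r)) ∂μ := by
      simp only [← hs_sum]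
      rw [integral_sub (tame_hd (bd_mg a)).integrable ((tame_hs bC).integrable.const_mul v),
        integral_const_mul]
      simp only [hd, hs]
      rw [integral_div, integral_div, integral_sub (tame_plus (bd_mg a)).integrable
        (tame_minus (bd_mg a)).integrable, integral_add (tame_plus bC).integrable
        (tame_minus bC).integrable, hneg _ (bd_mg a), hneg _ bC]
      simp only [epos]
      have i1 : Integrable (fun r => N 1 r - N (-1) r) μ := (iN 1).sub (iN (-1))
      have i2 : Integrable (fun r => v * (M 1 r + M (-1) r)) μ :=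
        ((iM 1).add (iM (-1))).const_mul v
      rw [integral_sub i1 i2, integral_sub (iN 1) (iN (-1)), integral_const_mul,
        integral_add (iM 1) (iM (-1))]
      simp only [N, M]
      ring
    rw [hL, integral_prod _ (hscomp (bd_t11 a)).1]
    simp only [key]
    rw [integral_const_mul]
    ring
  simp only [hone]
  have hT := Bd.sum (s := (univ : Finset (Fin m))) fun a => (bd_t11 (m := m) a).pow 2
  have hvol : (μ.prod seg).real Set.univ = 2 := by
    rw [measureReal_def, ← Set.univ_prod_univ, Measure.prod_prod]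
    simp [seg, μ]
    norm_num
  rw [← integral_prod (fun q : (Fin m → ℝ) × ℝ =>
    (fun J u => ∑ a, t11 J u a ^ 2) G (h + fun k => q.2 * v + √v * q.1 k)) (hcomp hT)]
  dsimp only
  rw [integral_finsetSum _ fun a _ => hcomp ((bd_t11 a).pow 2), mul_sum]
  refine sum_le_sum fun a _ => ?_
  rw [mul_pow]
  refine (mul_le_mul_of_nonneg_left (sq_integral_le (hscomp (bd_t11 a)).1 (hscomp (bd_t11 a)).2)
    (sq_nonneg _)).trans ?_
  rw [hvol]
  have : ∫ q : (Fin m → ℝ) × ℝ, (q.2 * t11 G (h + fun k => q.2 * v + √v * q.1 k) a) ^ 2 ∂μ.prod seg ≤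
      ∫ q : (Fin m → ℝ) × ℝ, t11 G (h + fun k => q.2 * v + √v * q.1 k) a ^ 2 ∂μ.prod seg := by
    refine integral_mono_ae (hscomp (bd_t11 a)).2 (hcomp ((bd_t11 a).pow 2)) ?_
    refine Measure.ae_prod_iff_ae_ae (measurableSet_le ?_ ?_) |>.2 (ae_of_all _ fun r => ?_)
    · exact ((continuous_snd.mul ((bd_t11 a).1.comp (f := fun q : (Fin m → ℝ) × ℝ =>
        (G, h + fun k => q.2 * v + √v * q.1 k)) (continuous_const.prodMk
          (continuous_const.add (by fun_prop))))).pow 2).measurable
    · exact ((bd_t11 a).pow 2).1.measurable.comp (f := fun q : (Fin m → ℝ) × ℝ =>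
        (G, h + fun k => q.2 * v + √v * q.1 k)) (by fun_prop)
    filter_upwards [ae_restrict_mem (measurableSet_Ioc (a := (-1:ℝ)) (b := 1))] with s hs
    rw [mul_pow]
    exact mul_le_of_le_one_left (sq_nonneg _) (by nlinarith [hs.1, hs.2])
  nlinarith [sq_nonneg (v ^ 2)]

/-- The mean of `r`. -/
lemma mean_rF_eq (hv : 0 ≤ v) (G : Mat m) (h : Vec m) (a : Fin m) :
    ∫ r, rF v G h a r ∂gauss (Fin m) =
      (∫ r, (hd v (fun J u => mg J u a) G h r -
        v * ∑ c, hs v (fun J u => cm2 J u a c) G h r) ∂gauss (Fin m)) +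
      2 * v * ∫ r, hd v (fun J u => vv J u a) G h r ∂gauss (Fin m) := by
  have e : ∀ r, rF v G h a r = (hd v (fun J u => mg J u a) G h r -
      v * ∑ c, hs v (fun J u => cm2 J u a c) G h r) -
      √v * ∑ c, r c * hs v (fun J u => cm2 J u a c) G h r := fun r => by
    simp only [rF, rv, mul_sum, sub_sub, ← sum_add_distrib]
    congr 1
    exact sum_congr rfl fun c _ => by ring
  simp only [e]
  have t1 : Tame fun r => hd v (fun J u => mg J u a) G h r -
      v * ∑ c, hs v (fun J u => cm2 J u a c) G h r :=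
    (tame_hd (bd_mg a)).sub ((Tame.const v).mul (Tame.sum fun c _ => tame_hs (bd_cm2 a c)))
  have t2 : ∀ c, Tame fun r : Fin m → ℝ => r c * hs v (fun J u => cm2 J u a c) G h r := fun c =>
    (Tame.coord c).mul (tame_hs (bd_cm2 a c))
  rw [integral_sub t1.integrable ((Tame.const _).mul (Tame.sum fun c _ => t2 c)).integrable,
    integral_const_mul, integral_finsetSum _ fun c _ => (t2 c).integrable]
  have hi : ∀ c, ∫ r, r c * hs v (fun J u => cm2 J u a c) G h r ∂gauss (Fin m) =
      √v * ∫ r, hd v (fun J u => cm3 J u a c c) G h r ∂gauss (Fin m) := fun c => by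
    rw [ibp (i := c) (tame_hs (bd_cm2 a c))
      ((Tame.const √v).mul (tame_hd (bd_cm3 a c c))) fun r t => ?_, integral_const_mul]
    simpa only [update_eq_upd] using hasDerivAt_hs (f := fun (q : Fin m × Fin m) J u => cm2 J u q.1 q.2)
      (D := fun q k J u => cm3 J u q.1 q.2 k)
      (fun q G u c t => hasDerivAt_cm2_line G u c _ _ t) v G h c (a, c) r t
  simp only [hi]
  rw [← mul_sum, ← integral_finsetSum _ fun c _ => (tame_hd (bd_cm3 a c c)).integrable,
    ← mul_assoc, mul_self_sqrt hv]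
  have e2 : ∀ r, ∑ c, hd v (fun J u => cm3 J u a c c) G h r =
      -2 * hd v (fun J u => vv J u a) G h r := fun r => by
    rw [← hd_sum, ← hd_const_mul]
    simp only [hd, ← sum_cm3_diag, cm3_swap12 _ _ a, cm3_swap23 _ _ _ a]
  simp only [e2, integral_const_mul]
  ring

/-- The segment average given the subsystem. -/
noncomputable def segAv (v : ℝ) (ψ : Mat m → Vec m → ℝ) (G : Mat m) (h : Vec m) : ℝ :=
  ∫ r, ∫ s, ψ G (h + fun k => s * v + √v * r k) ∂seg ∂gauss (Fin m)

/-- The half sum average given the subsystem. -/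
noncomputable def hsAv (v : ℝ) (ψ : Mat m → Vec m → ℝ) (G : Mat m) (h : Vec m) : ℝ :=
  ∫ r, hs v ψ G h r ∂gauss (Fin m)

/-- `|T[1,1]|²`. -/
noncomputable def o11 (J : Mat m) (u : Vec m) : ℝ := ∑ a, t11 J u a ^ 2

/-- `|(∇v)1|²`. -/
noncomputable def oGV (J : Mat m) (u : Vec m) : ℝ := tot (fun a k J u => gradV J u a k) J u

/-- `‖T4[1]‖²`. -/
noncomputable def o41 (J : Mat m) (u : Vec m) : ℝ := ∑ p : Fin m × Fin m, ∑ l, t41 J u p.1 p.2 l ^ 2

/-- `‖T4[1,1]‖²`. -/
noncomputable def o411 (J : Mat m) (u : Vec m) : ℝ :=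
  tot (fun (p : Fin m × Fin m) l J u => t41 J u p.1 p.2 l) J u

/-- `‖T4[1]‖²`, contracted in the last index. -/
noncomputable def o41' (J : Mat m) (u : Vec m) : ℝ :=
  tot (fun (q : Fin m × Fin m × Fin m) l J u => cm4 J u q.1 q.2.1 q.2.2 l) J u

lemma lineDer_T1 : LineDer (fun (p : Fin m × Fin m) J u => ∑ c, cm3 J u p.1 c p.2)
    (fun p l J u => t41 J u p.1 p.2 l) :=
  lineDer_sum (f := fun (q : (Fin m × Fin m) × Fin m) J u => cm3 J u q.1.1 q.2 q.1.2)
    (D := fun q l J u => cm4 J u q.1.1 q.2 q.1.2 l)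
    fun q G u c t => hasDerivAt_cm3_line G u c _ _ _ t

/-- The fluctuation of the contracted half difference of `T` along the row. -/
lemma zF_le (hv : 0 ≤ v) (G : Mat m) (h : Vec m) :
    ∫ r, ∑ p : Fin m × Fin m,
        (∑ c, hd v (fun J u => cm3 J u p.1 c p.2) G h r * (√v * r c)) ^ 2 ∂gauss (Fin m) ≤
      v ^ 3 * segAv v o41' G h + 4 * v ^ 2 * hsAv v (fun J u => sq4 (cm4 J u)) G h +
        8 * v ^ 2 * hsAv v (fun J u => sq2 (gradV J u)) G h := by
  set X := fun (p : Fin m × Fin m) c r => hd v (fun J u => cm3 J u p.1 c p.2) G h r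
  set D := fun (p : Fin m × Fin m) d c r => √v * hs v (fun J u => cm4 J u p.1 c p.2 d) G h r
  have tX : ∀ p c, Tame (X p c) := fun p c => tame_hd (bd_cm3 _ _ _)
  have tD : ∀ p d c, Tame (D p d c) := fun p d c => (Tame.const _).mul (tame_hs (bd_cm4 _ _ _ _))
  have hXd : ∀ p d c g t, HasDerivAt (fun s => X p c (Function.update g d s))
      (D p d c (Function.update g d t)) t := fun p d c g t =>
    hasDerivAt_hd (f := fun (q : Fin m × Fin m × Fin m) J u => cm3 J u q.1 q.2.1 q.2.2)
      (D := fun q k J u => cm4 J u q.1 q.2.1 q.2.2 k)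
      (fun q G u c t => hasDerivAt_cm3_line G u c _ _ _ t) v G h d (p.1, c, p.2) g t
  have hDd : ∀ p e d c g t, HasDerivAt (fun s => D p d c (Function.update g e s))
      (v * hd v (fun J u => cm5 J u p.1 c p.2 d e) G h (Function.update g e t)) t :=
    fun p e d c g t => by
    have h1 := hasDerivAt_hs (f := fun (q : Fin m × Fin m × Fin m × Fin m) J u =>
        cm4 J u q.1 q.2.1 q.2.2.1 q.2.2.2)
      (D := fun q k J u => cm5 J u q.1 q.2.1 q.2.2.1 q.2.2.2 k)
      (fun q G u c t => hasDerivAt_cm4_line G u c _ _ _ _ t) v G h e (p.1, c, p.2, d) g t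
    refine (h1.const_mul (√v)).congr_deriv ?_
    rw [← mul_assoc, mul_self_sqrt hv]
  have bd5 : ∀ p e d c, Bd fun (J : Mat m) u => cm5 J u (p : Fin m × Fin m).1 c p.2 d e :=
    fun p e d c => Bd.of_le (continuous_cm5 _ _ _ _ _) fun J u => abs_cm5_le J u _ _ _ _ _
  have hdel := integral_sum_gDelta_sq_le (X := X) (D := D)
    (D2 := fun p e d c r => v * hd v (fun J u => cm5 J u p.1 c p.2 d e) G h r)
    (fun p c => (tX p c).1) (fun p d c => (tD p d c).1)
    (fun p e d c => continuous_const.mul (tame_hd (bd5 p e d c)).1)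
    (fun p c => (tX p c).2) (fun p d c => (tD p d c).2)
    (fun p e d c => ((Tame.const v).mul (tame_hd (bd5 p e d c))).2)
    (fun p d c g t => by simpa only [update_eq_upd] using hXd p d c g t)
    (fun p e d c g t => by simpa only [update_eq_upd] using hDd p e d c g t)
    (fun p e d c g => by simp only [hd, cm5_swap45 _ _ _ _ _ e d])
  have e : ∀ p r, ∑ c, X p c r * (√v * r c) = √v * gDelta (X p) (D p) r +
      v * (-2 * hs v (fun J u => gradV J u p.1 p.2) G h r) := fun p r => by
    have e1 : ∑ c, hs v (fun J u => cm4 J u p.1 c p.2 c) G h r =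
        -2 * hs v (fun J u => gradV J u p.1 p.2) G h r := by
      rw [← hs_sum, ← hs_const_mul]
      simp only [hs, ← sum_cm4_diag, cm4_swap12 _ _ p.1, cm4_swap34 _ _ _ p.1,
        cm4_swap23 _ _ _ p.1]
    rw [← e1, gDelta, mul_sum, mul_sum, ← sum_add_distrib]
    refine sum_congr rfl fun c _ => ?_
    simp only [X, D]
    linear_combination (hs v (fun J u => cm4 J u p.1 c p.2 c) G h r) * mul_self_sqrt hv
  have tG : ∀ p, Tame (gDelta (X p) (D p)) := fun p =>
    Tame.sum (F := fun c g => g c * X p c g - D p c c g) fun c _ =>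
      ((Tame.coord c).mul (tX p c)).sub (tD p c c)
  have bgv : Bd fun (J : Mat m) u => sq2 (gradV J u) :=
    Bd.sum fun a => Bd.sum fun c => (bd_gradV a c).pow 2
  have b4 : Bd fun (J : Mat m) u => sq4 (cm4 J u) :=
    Bd.sum fun a => Bd.sum fun c => Bd.sum fun d => Bd.sum fun e => (bd_cm4 a c d e).pow 2
  have tL : Tame fun r => ∑ p : Fin m × Fin m, (∑ c, X p c r * (√v * r c)) ^ 2 :=
    Tame.sum fun p _ => (Tame.sum fun c _ =>
      (tX p c).mul ((Tame.const _).mul (Tame.coord c))).pow 2
  have i1 : Integrable (fun r => 2 * v * ∑ p, gDelta (X p) (D p) r ^ 2) (gauss (Fin m)) :=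
    (Tame.sum fun p _ => (tG p).pow 2).integrable.const_mul _
  have i2 : Integrable (fun r => 8 * v ^ 2 * hs v (fun J u => sq2 (gradV J u)) G h r)
      (gauss (Fin m)) := (tame_hs bgv).integrable.const_mul _
  refine (integral_mono tL.integrable (i1.add i2) fun r => ?_).trans ?_
  · simp only [Pi.add_apply, e]
    refine (sum_le_sum fun p _ => add_sq_le).trans ?_
    have hg := hs_sq_le_hs (v := v) (G := G) (h := h)
      (fun (p : Fin m × Fin m) J u => gradV J u p.1 p.2) r
    simp only [Fintype.sum_prod_type] at hg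
    simp only [mul_pow, sq_sqrt hv, mul_add, sum_add_distrib, ← mul_sum]
    rw [Fintype.sum_prod_type (f := fun p : Fin m × Fin m =>
      hs v (fun J u => gradV J u p.1 p.2) G h r ^ 2)]
    have := mul_le_mul_of_nonneg_left hg (by positivity : 0 ≤ 8 * v ^ 2)
    simp only [sq2] at this ⊢
    linarith
  rw [integral_add' i1 i2, integral_const_mul, integral_const_mul]
  refine add_le_add ?_ (le_of_eq rfl)
  have hX : ∫ r, ∑ p, ∑ c, X p c r ^ 2 ∂gauss (Fin m) ≤
      v ^ 2 / 2 * segAv v o41' G h + v * hsAv v (fun J u => sq4 (cm4 J u)) G h := by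
    have h0 := hd_sq_le (G := G) (h := h)
      (f := fun (q : Fin m × Fin m × Fin m) J u => cm3 J u q.1 q.2.1 q.2.2)
      (D := fun q k J u => cm4 J u q.1 q.2.1 q.2.2 k) hv (fun q => bd_cm3 _ _ _)
      (fun q k => bd_cm4 _ _ _ _) fun q G u c t => hasDerivAt_cm3_line G u c _ _ _ t
    simp only [Fintype.sum_prod_type] at h0
    refine le_trans (le_of_eq (integral_congr_ae (ae_of_all _ fun r => ?_))) (h0.trans_eq ?_)
    · simp only [Fintype.sum_prod_type, X]
      exact sum_congr rfl fun a _ => sum_comm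
    · rfl
  have hD : ∫ r, ∑ p, ∑ d, ∑ c, D p d c r ^ 2 ∂gauss (Fin m) ≤
      v * hsAv v (fun J u => sq4 (cm4 J u)) G h := by
    rw [hsAv, ← integral_const_mul]
    refine integral_mono (Tame.sum fun p _ => Tame.sum fun d _ => Tame.sum fun c _ =>
      (tD p d c).pow 2).integrable ((tame_hs b4).integrable.const_mul _) fun r => ?_
    simp only [D, mul_pow, sq_sqrt hv, ← mul_sum, Fintype.sum_prod_type]
    refine mul_le_mul_of_nonneg_left ?_ hv
    have h4 := hs_sq_le_hs (v := v) (G := G) (h := h)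
      (fun (q : Fin m × Fin m × Fin m × Fin m) J u => cm4 J u q.1 q.2.2.2 q.2.1 q.2.2.1) r
    simp only [Fintype.sum_prod_type] at h4
    refine h4.trans (le_of_eq ?_)
    congr 1
    funext J u
    simp only [sq4, sq2]
    exact sum_congr rfl fun a _ => (sum_congr rfl fun k _ => sum_comm).trans sum_comm
  refine (mul_le_mul_of_nonneg_left (hdel.trans (add_le_add hX hD)) (by positivity)).trans_eq ?_
  ring

/-- **`r` in mean square, given the subsystem.** -/
theorem rF_le (hv : 0 ≤ v) (G : Mat m) (h : Vec m) :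
    ∫ r, ∑ a, rF v G h a r ^ 2 ∂gauss (Fin m) ≤
      v ^ 4 * segAv v o11 G h + 4 * v ^ 4 * segAv v oGV G h + v ^ 5 * segAv v o411 G h +
        2 * v ^ 4 * hsAv v o41 G h + 2 * v ^ 4 * segAv v o41' G h +
        8 * v ^ 3 * hsAv v (fun J u => sq4 (cm4 J u)) G h +
        16 * v ^ 3 * hsAv v (fun J u => sq2 (gradV J u)) G h := by
  have hp := pv (F := rF v G h) (D := fun k a => rD v G h k a) (tame_rF v G h)
    (fun k a => tame_rD v G h k a) fun k a g t => hasDerivAt_rF G h k a g t
  have hmean : ∑ a, (∫ r, rF v G h a r ∂gauss (Fin m)) ^ 2 ≤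
      v ^ 4 * segAv v o11 G h + 4 * v ^ 4 * segAv v oGV G h := by
    simp only [mean_rF_eq hv]
    refine (sum_le_sum fun a _ => add_sq_le).trans ?_
    simp only [mul_add, sum_add_distrib, ← mul_sum, mul_pow]
    refine add_le_add ((mul_le_mul_of_nonneg_left (second_mean_le G h) two_pos.le).trans_eq ?_) ?_
    · simp only [segAv, o11]; ring
    · have h2 := mean_row_le (φ := fun (a : Fin m) J u => vv J u a)
        (D := fun a k J u => gradV J u a k) (fun a => bd_vv a) (fun a k => bd_gradV a k)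
        (fun a G u c t => hasDerivAt_vv_line G u c a t) v G h
      refine (mul_le_mul_of_nonneg_left (mul_le_mul_of_nonneg_left h2 (by positivity))
        two_pos.le).trans_eq ?_
      simp only [segAv, oGV]; ring
  have hgrad : ∫ r, ∑ a, ∑ k, rD v G h k a r ^ 2 ∂gauss (Fin m) ≤
      2 * v ^ 3 * (v ^ 2 / 2 * segAv v o411 G h + v * hsAv v o41 G h) +
      2 * v * (v ^ 3 * segAv v o41' G h + 4 * v ^ 2 * hsAv v (fun J u => sq4 (cm4 J u)) G h +
        8 * v ^ 2 * hsAv v (fun J u => sq2 (gradV J u)) G h) := by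
    set A := fun (r : Fin m → ℝ) => ∑ p : Fin m × Fin m,
      hd v (fun J u => ∑ c, cm3 J u p.1 c p.2) G h r ^ 2
    set B := fun (r : Fin m → ℝ) => ∑ p : Fin m × Fin m,
      (∑ c, hd v (fun J u => cm3 J u p.1 c p.2) G h r * (√v * r c)) ^ 2
    have iA : Integrable (fun r => 2 * v ^ 3 * A r) (gauss (Fin m)) :=
      (Tame.sum fun p _ => (tame_hd (Bd.sum fun c => bd_cm3 _ c _)).pow 2).integrable.const_mul _
    have iB : Integrable (fun r => 2 * v * B r) (gauss (Fin m)) :=
      (Tame.sum fun p _ => (Tame.sum fun c _ => (tame_hd (bd_cm3 _ c _)).mul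
        ((Tame.const _).mul (Tame.coord c))).pow 2).integrable.const_mul _
    refine (integral_mono (Tame.sum fun a _ => Tame.sum fun k _ => (tame_rD v G h k a).pow 2).integrable
      (iA.add iB) fun r => ?_).trans ?_
    · simp only [A, B, Pi.add_apply, Fintype.sum_prod_type, mul_sum, ← sum_add_distrib]
      refine sum_le_sum fun a _ => sum_le_sum fun k _ => ?_
      have e : ∑ c, hd v (fun J u => cm3 J u a c k) G h r * rv v r c =
          v * hd v (fun J u => ∑ c, cm3 J u a c k) G h r +
          ∑ c, hd v (fun J u => cm3 J u a c k) G h r * (√v * r c) := by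
        rw [hd_sum, mul_sum, ← sum_add_distrib]
        exact sum_congr rfl fun c _ => by simp only [rv]; ring
      rw [rD, neg_sq, mul_pow, sq_sqrt hv, e]
      refine (mul_le_mul_of_nonneg_left add_sq_le hv).trans_eq ?_
      ring
    rw [integral_add' iA iB, integral_const_mul, integral_const_mul]
    refine add_le_add (mul_le_mul_of_nonneg_left ?_ (by positivity))
      (mul_le_mul_of_nonneg_left (zF_le hv G h) (by positivity))
    exact hd_sq_le hv (fun p => Bd.sum fun c => bd_cm3 _ c _) (fun p l => bd_t41 _ _ l) lineDer_T1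
  refine (hp.trans (add_le_add hmean hgrad)).trans_eq ?_
  ring

end Vale.Agent.P150.Weak.Resp
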