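import Vale.Agent.P150.Weak.Resp.Alg
import Vale.Agent.P150.Weak.Resp.QV
import Vale.Agent.P150.Weak.Resp.RV
import Vale.Agent.P150.Weak.Rec.Second

/-!
The error of linear response at one row beyond the exact chaos, in mean square.
-/

open MeasureTheory ProbabilityTheory Finset Real

namespace Vale.Agent.P150.Weak.Resp

open Gap Rec

variable {m : ℕ} {b : ℝ} {n : ℕ} {τ : ℝ}

attribute [local irreducible] cm2 cm3 cm4 mg vv gradV

lemma kbar_eq_kK (v : ℝ) (i : Fin (m + 1)) (J : Mat (m + 1)) (u : Vec (m + 1)) :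
    kbar v i J u = kK v (sub i J) (subU i u) := rfl

lemma continuous_kK (v : ℝ) (a c e : Fin m) :
    Continuous fun q : Mat m × Vec m => kK v q.1 q.2 a c e := by
  refine continuous_of_dominated (bound := fun _ => (8:ℝ))
    (fun q => (tame_hs (bd_cm3 a c e)).1.aestronglyMeasurable) (fun q => ae_of_all _ fun r => ?_)
    (integrable_const _) (ae_of_all _ fun r => ?_)
  · have h1 := abs_le.1 (abs_cm3_le q.1 (q.2 + rv v r) a c e)
    have h2 := abs_le.1 (abs_cm3_le q.1 (q.2 - rv v r) a c e)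
    rw [norm_eq_abs, hs, abs_le]; constructor <;> linarith
  · simp only [hs]
    exact (((continuous_cm3 a c e).comp (f := fun q : Mat m × Vec m => (q.1, q.2 + rv v r))
      (by fun_prop)).add ((continuous_cm3 a c e).comp
      (f := fun q : Mat m × Vec m => (q.1, q.2 - rv v r)) (by fun_prop))).div_const 2

lemma bd_kbar (v : ℝ) (i : Fin (m + 1)) (a c e : Fin m) : Bd fun J u => kbar v i J u a c e := by
  simp only [kbar_eq_kK]
  exact Bd.of_le ((continuous_kK v a c e).comp (f := fun q : Mat (m + 1) × Vec (m + 1) =>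
    (Weak.sub i q.1, subU i q.2)) (by unfold Weak.sub subU; fun_prop)) fun J u => abs_kK_le ..

/-- Polynomial growth of a sampled observable. -/
def TS (v τ : ℝ) (F : Mat m → Vec m → ℝ) : Prop :=
  Tame fun g : Idx m → ℝ => F (plJ v g) (plU τ g)

lemma TS.of_bd {F : Mat m → Vec m → ℝ} (h : Bd F) (v τ : ℝ) : TS v τ F := by
  obtain ⟨hc, B, hB⟩ := h
  exact Tame.of_bounded (hc.comp (f := fun g : Idx m → ℝ => (plJ v g, plU τ g))
    ((continuous_plJ v).prodMk (continuous_plU τ))) fun g => hB _ _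

lemma ts_rowOf (v τ : ℝ) (i : Fin (m + 1)) (c : Fin m) : TS v τ fun J _ => rowOf i J c := by
  simp only [TS, rowOf, plJ, Gap.sym]
  split_ifs <;>
    first
    | exact Tame.const 0
    | exact (Tame.const v).add ((Tame.const _).mul (Tame.coord _))
    | exact (Tame.const v).add ((Tame.const _).mul (Tame.const _))

/-- `g - g₀`. -/
noncomputable def qV (v : ℝ) (i : Fin (m + 1)) (J : Mat (m + 1)) (u : Vec (m + 1)) (a : Fin m) : ℝ :=
  gV v i J u a - chaosRow v J u i (i.succAbove a)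

lemma ts_rV (v τ : ℝ) (i : Fin (m + 1)) (a : Fin m) : TS v τ fun J u => rV i J u a := by
  have h1 : TS v τ fun J u => del i (fun J u => mg J u a) J u := TS.of_bd ((bd_mg a).delI i) v τ
  have h2 : ∀ c, TS v τ fun J u => bar i (fun J u => cm2 J u a c) J u := fun c =>
    TS.of_bd ((bd_cm2 a c).barI i) v τ
  have h := h1.sub (Tame.sum (s := univ) fun c _ => (h2 c).mul (ts_rowOf v τ i c))
  simpa [TS, rV, del, bar] using! h

lemma ts_qV (v τ : ℝ) (i : Fin (m + 1)) (a : Fin m) : TS v τ fun J u => qV v i J u a := by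
  have h1 : ∀ c, TS v τ fun J u => del i (fun J u => cm2 J u a c) J u := fun c =>
    TS.of_bd ((bd_cm2 a c).delI i) v τ
  have h2 : TS v τ fun J u => bar i (fun J u => vv J u a) J u := TS.of_bd ((bd_vv a).barI i) v τ
  have h3 : ∀ c e, TS v τ fun J u => kbar v i J u a c e := fun c e => TS.of_bd (bd_kbar v i a c e) v τ
  have hξ : ∀ c, Tame fun g : Idx (m + 1) → ℝ => rowOf i (plJ v g) c - v := fun c =>
    (ts_rowOf v τ i c).sub (Tame.const v)
  have h := ((Tame.sum (s := univ) fun c _ => (h1 c).mul (hξ c)).add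
    ((Tame.const (2 * v)).mul h2)).sub ((Tame.sum (s := univ) fun c _ => Tame.sum (s := univ)
      fun e _ => (h3 c e).mul ((hξ c).mul (hξ e))).sub
      ((Tame.const v).mul (Tame.sum (s := univ) fun c _ => h3 c c)))
  simpa [TS, qV, gV, chaosRow, del, bar] using! h

lemma rV_join (v τ : ℝ) (i : Fin (m + 1)) (g : Idx m → ℝ) (r : Fin m → ℝ) (t : ℝ) (a : Fin m) :
    rV i (plJ v (join i g r t)) (plU τ (join i g r t)) a = rF v (plJ v g) (plU τ g) a r := by
  simp only [rV, rF, hd, hs, del, bar, sub_plJ, subU_plU, rowOf_plJ, Pi.smul_apply, Pi.add_apply,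
    Pi.sub_apply, smul_eq_mul, show rv v r = fun k => v + √v * r k from rfl]
  congr 1
  · ring
  · exact sum_congr rfl fun c _ => by ring

lemma qV_join (v τ : ℝ) (i : Fin (m + 1)) (g : Idx m → ℝ) (r : Fin m → ℝ) (t : ℝ) (a : Fin m) :
    qV v i (plJ v (join i g r t)) (plU τ (join i g r t)) a = qF v (plJ v g) (plU τ g) a r := by
  simp only [qV, gV, chaosRow, Fin.insertNth_apply_succAbove, kbar_eq_kK, qF, hd, hs, del, bar,
    sub_plJ, subU_plU, rowOf_plJ, Pi.smul_apply, Pi.add_apply, Pi.sub_apply, smul_eq_mul,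
    show rv v r = fun k => v + √v * r k from rfl, add_sub_cancel_left]
  congr 2
  · exact sum_congr rfl fun c _ => by ring
  · ring

/-- A nonnegative observable of the subsystem and the row, bounded given the subsystem. -/
lemma pEv_row_le {F : Mat (m + 1) → Vec (m + 1) → ℝ}
    (hF : TS (b ^ 2 / n) τ F) (h0 : ∀ J u, 0 ≤ F J u) (i : Fin (m + 1))
    {f : (Idx m → ℝ) → (Fin m → ℝ) → ℝ}
    (hf : ∀ g r t, F (plJ (b ^ 2 / n) (join i g r t)) (plU τ (join i g r t)) = f g r)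
    {B : (Idx m → ℝ) → ℝ} (hB : Integrable B (gauss (Idx m)))
    (hle : ∀ g, ∫ r, f g r ∂gauss (Fin m) ≤ B g) :
    pEv b n (m + 1) τ F ≤ ∫ g, B g ∂gauss (Idx m) := by
  rw [pEv_split i (Tame.integrable hF)]
  simp only [hf, integral_const, probReal_univ, one_smul]
  refine integral_mono_of_nonneg (ae_of_all _ fun g => integral_nonneg fun r => ?_) hB
    (ae_of_all _ hle)
  show (0:ℝ) ≤ f g r
  rw [← hf g r 0]; exact h0 _ _

/-- The half difference of a family, in mean square. -/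
lemma delEv_le {κ : Type*} [Fintype κ] {φ : κ → Mat m → Vec m → ℝ}
    {D : κ → Fin m → Mat m → Vec m → ℝ} (hφ : ∀ a, Bd (φ a)) (hD : ∀ a k, Bd (D a k))
    (hl : LineDer φ D) (i : Fin (m + 1)) {B1 B2 : ℝ}
    (h1 : ∀ s : ℝ, |s| ≤ 1 → shEv b n τ s (tot D) ≤ B1)
    (h2 : ∀ s : ℝ, |s| ≤ 1 → shEv b n τ s (fun J u => ∑ a, ∑ k, D a k J u ^ 2) ≤ B2) :
    pEv b n (m + 1) τ (fun J u => ∑ a, del i (φ a) J u ^ 2) ≤
      (b ^ 2 / n) ^ 2 * B1 + b ^ 2 / n * B2 := by
  set v := b ^ 2 / (n:ℝ) with hv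
  have hv0 : 0 ≤ v := by positivity
  have hS := Bd.sum (s := (univ : Finset κ)) fun a => Bd.sum (s := (univ : Finset (Fin m)))
    fun k => (hD a k).pow 2
  refine (pEv_row_le (TS.of_bd (Bd.sum fun a => ((hφ a).delI i).pow 2) _ _)
    (fun J u => sum_nonneg fun a _ => sq_nonneg _) i
    (f := fun g r => ∑ a, hd v (φ a) (plJ v g) (plU τ g) r ^ 2)
    (fun g r t => sum_congr rfl fun a _ => by rw [← hv, del_join v τ i g r t]; rfl)
    (((integrable_A2 (bd_tot hD)).const_mul (v ^ 2 / 2)).add ((integrable_A1 hS).const_mul v))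
    fun g => hd_sq_le hv0 hφ hD hl).trans ?_
  rw [integral_add' ((integrable_A2 (bd_tot hD)).const_mul _) ((integrable_A1 hS).const_mul _),
    integral_const_mul, integral_const_mul]
  refine add_le_add ((mul_le_mul_of_nonneg_left (A2_le (bd_tot hD) h1) (by positivity)).trans_eq
    (by ring)) (mul_le_mul_of_nonneg_left (A1_le hS h2) hv0)

lemma shEv_crude_le {ψ : Mat m → Vec m → ℝ} (hψ : Bd ψ) (hτ : 0 ≤ τ) (hmn : m ≤ n) {C X : ℝ}
    (hX : 0 ≤ X) (h : pEv b n m (τ + b ^ 2 / n) (fun J u => ψ J u ^ 2) ≤ C * X ^ 2) (s : ℝ)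
    (hs : |s| ≤ 1) : shEv b n τ s ψ ≤ exp (2 * b ^ 2) * √|C| * X := by
  rw [mul_assoc]
  exact (shEv_crude hψ hτ hmn hs).trans
    (mul_le_mul_of_nonneg_left (sqrt_bound h hX) (exp_pos _).le)

/-- Bounds on the shifted means that do not need the inputs. -/
def Fixed (b : ℝ) (n m : ℕ) (τ K : ℝ) : Prop :=
  ∀ s : ℝ, |s| ≤ 1 →
    shEv b n τ s (o11 (m := m)) ≤ K * ((n:ℝ) ^ 2 * √n) ∧
    shEv b n τ s (oGV (m := m)) ≤ K * ((n:ℝ) ^ 2 * √n) ∧
    shEv b n τ s (o41 (m := m)) ≤ K * ((n:ℝ) ^ 2 * √n) ∧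
    shEv b n τ s (o41' (m := m)) ≤ K * ((n:ℝ) ^ 2 * √n) ∧
    shEv b n τ s (o411 (m := m)) ≤ K * ((n:ℝ) ^ 3 * √n)

lemma bd_o11 : Bd (o11 (m := m)) := Bd.sum fun a => (bd_t11 a).pow 2
lemma bd_oGV : Bd (oGV (m := m)) := bd_tot fun a k => bd_gradV a k
lemma bd_o41 : Bd (o41 (m := m)) :=
  Bd.sum fun p => Bd.sum fun l => (bd_t41 p.1 p.2 l).pow 2
lemma bd_o41' : Bd (o41' (m := m)) := bd_tot fun q l => bd_cm4 q.1 q.2.1 q.2.2 l
lemma bd_o411 : Bd (o411 (m := m)) := bd_tot fun p l => bd_t41 p.1 p.2 l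

lemma o41_eq (J : Mat m) (u : Vec m) :
    o41 J u = sq3 (fun i j k => ∑ l, cm4 J u l i j k) := by
  simp only [o41, t41, sq3, sq2, Fintype.sum_prod_type]
  refine sum_congr rfl fun a _ => sum_congr rfl fun k _ => sum_congr rfl fun l _ => ?_
  congr 1
  exact sum_congr rfl fun c _ => by rw [cm4_swap12]

lemma o41'_eq (J : Mat m) (u : Vec m) :
    o41' J u = sq3 (fun i j k => ∑ l, cm4 J u l i j k) := by
  simp only [o41', tot, sq3, sq2, Fintype.sum_prod_type]
  refine sum_congr rfl fun a _ => sum_congr rfl fun k _ => sum_congr rfl fun l _ => ?_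
  congr 1
  exact sum_congr rfl fun c _ => by rw [cm4_swap34, cm4_swap23, cm4_swap12]

lemma o411_le (J : Mat m) (u : Vec m) : o411 J u ≤ m * o41 J u := by
  simp only [o411, tot, o41, mul_sum]
  refine sum_le_sum fun p _ => ?_
  rw [← mul_sum]
  simpa using sq_sum_le_card_mul_sum_sq (s := (univ : Finset (Fin m))) (f := fun l => t41 J u p.1 p.2 l)

lemma oGV_le (J : Mat m) (u : Vec m) :
    oGV J u ≤ 2 * sq1 (fun i => ∑ j, ∑ k, mg J u j * cm3 J u i j k) +
      2 * (sq2 (cm2 J u) * sq1 (fun i => ∑ j, cm2 J u i j)) := by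
  have e : ∀ a, ∑ k, gradV J u a k = (∑ j, ∑ k, mg J u j * cm3 J u a j k) +
      ∑ l, cm2 J u a l * ∑ k, cm2 J u l k := fun a => by
    simp only [gradV, app, sum_add_distrib, mul_sum]
    congr 1
    · rw [sum_comm]
      exact sum_congr rfl fun j _ => sum_congr rfl fun k _ => by rw [cm3_swap12]
    · exact sum_comm
  simp only [oGV, tot, e]
  refine (sum_le_sum fun a _ => add_sq_le).trans ?_
  simp only [mul_add, sum_add_distrib, ← mul_sum]
  refine add_le_add le_rfl (mul_le_mul_of_nonneg_left ?_ two_pos.le)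
  rw [sq2, sum_mul]
  exact sum_le_sum fun a _ => sum_mul_sq_le_sq_mul_sq _ _ _

lemma fixed_of_crude (hG : GrowSpec b) (hC : CrudeSpec b) :
    ∃ K : ℝ, 0 ≤ K ∧ ∀ n m : ℕ, ∀ τ : ℝ, 0 ≤ τ → 0 < n → m ≤ n → Fixed b n m τ K := by
  obtain ⟨Cg, hg⟩ := hG
  obtain ⟨C2, hc2⟩ := hC 2
  obtain ⟨C4, hc4⟩ := hC 4
  set Cgv := 8 * |C2| + 8 * (√|(Cg * 4) ^ 4| * √|C4|) with hCgv
  set E := exp (2 * b ^ 2)
  refine ⟨E * (√|C2| + √|Cgv|), by positivity, fun n m τ hτ hn hmn s hs => ?_⟩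
  set q := τ + b ^ 2 / (n:ℝ) with hq
  obtain ⟨-, -, -, -, c5, c6, c7, -, -⟩ := hc2 n m q (by positivity) hn hmn
  obtain ⟨-, d2, -⟩ := hc4 n m q (by positivity) hn hmn
  obtain ⟨g1, -, -⟩ := hg n m 4 q (by positivity) (by norm_num) hn hmn
  set X := (n:ℝ) ^ 2 * √n with hX
  have hX0 : 0 ≤ X := by positivity
  have hl : ∀ {K0 : ℝ}, K0 = √|C2| ∨ K0 = √|Cgv| → E * K0 * X ≤ E * (√|C2| + √|Cgv|) * X := by
    intro K0 h
    gcongr
    rcases h with rfl | rfl <;> linarith [sqrt_nonneg |C2|, sqrt_nonneg |Cgv|]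
  have hGV : pEv b n m q (fun J u => oGV J u ^ 2) ≤ Cgv * X ^ 2 := by
    set f1 := fun (J : Mat m) (u : Vec m) => sq1 (fun i => ∑ j, ∑ k, mg J u j * cm3 J u i j k)
    set f2 := fun (J : Mat m) (u : Vec m) => sq2 (cm2 J u)
    set f3 := fun (J : Mat m) (u : Vec m) => sq1 (fun i => ∑ j, cm2 J u i j)
    have bf1 : Bd f1 := Bd.sum fun i =>
      (Bd.sum fun j => Bd.sum fun k => (bd_mg j).mul (bd_cm3 i j k)).pow 2
    have bf2 : Bd f2 := Bd.sum fun i => Bd.sum fun j => (bd_cm2 i j).pow 2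
    have bf3 : Bd f3 := Bd.sum fun i => (Bd.sum fun j => bd_cm2 i j).pow 2
    refine (pEv_mono (bd_oGV.pow 2) (((bf1.pow 2).const_mul 8).add
      (((bf2.pow 2).mul (bf3.pow 2)).const_mul 8)) fun J u _ => ?_).trans ?_
    · have h0 : 0 ≤ oGV J u := by unfold oGV tot; positivity
      refine (pow_le_pow_left₀ h0 (oGV_le J u) 2).trans ?_
      refine add_sq_le.trans (le_of_eq ?_)
      simp only [f1, f2, f3]; ring
    rw [pEv_add ((bf1.pow 2).const_mul 8) (((bf2.pow 2).mul (bf3.pow 2)).const_mul 8),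
      pEv_const_mul, pEv_const_mul, hCgv, add_mul, mul_assoc, mul_assoc]
    refine add_le_add (mul_le_mul_of_nonneg_left (c6.trans (mul_le_mul_of_nonneg_right
      (le_abs_self _) (sq_nonneg _))) (by norm_num)) (mul_le_mul_of_nonneg_left ?_ (by norm_num))
    refine (pEv_mul_le_of (bf2.pow 2) (bf3.pow 2) (A := (Cg * 4) ^ 4 * ((n:ℝ) ^ 2) ^ 2)
      (B := C4 * (((n:ℝ) * √n) ^ 2) ^ 2) ?_ ?_).trans ?_
    · simp only [← pow_mul, f2]
      exact g1.trans_eq (by push_cast; ring)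
    · simp only [← pow_mul, f3]
      exact d2
    refine (mul_le_mul (sqrt_bound le_rfl (by positivity)) (sqrt_bound le_rfl (by positivity))
      (sqrt_nonneg _) (by positivity)).trans_eq ?_
    simp only [hX]; ring
  refine ⟨?_, ?_, ?_, ?_, ?_⟩
  · exact (shEv_crude_le bd_o11 hτ hmn (C := C2) hX0 c5 s hs).trans (hl (.inl rfl))
  · exact (shEv_crude_le bd_oGV hτ hmn hX0 hGV s hs).trans (hl (.inr rfl))
  · exact (shEv_crude_le bd_o41 hτ hmn (C := C2) hX0 (by simpa only [o41_eq] using c7) s hs).trans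
      (hl (.inl rfl))
  · exact (shEv_crude_le bd_o41' hτ hmn (C := C2) hX0 (by simpa only [o41'_eq] using c7) s hs).trans
      (hl (.inl rfl))
  · refine (shEv_crude_le bd_o411 hτ hmn (C := C2) (X := (n:ℝ) * X) (by positivity) ?_ s hs).trans ?_
    · refine (pEv_mono (bd_o411.pow 2) ((bd_o41.pow 2).const_mul ((n:ℝ) ^ 2))
        fun J u _ => ?_).trans ?_
      · rw [← mul_pow]
        refine pow_le_pow_left₀ (sum_nonneg fun a _ => sq_nonneg _) ((o411_le J u).trans ?_) 2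
        exact mul_le_mul_of_nonneg_right (Nat.cast_le.2 hmn)
          (sum_nonneg fun a _ => sum_nonneg fun l _ => sq_nonneg _)
      · rw [pEv_const_mul]
        refine (mul_le_mul_of_nonneg_left (by simpa only [o41_eq] using c7) (sq_nonneg _)).trans_eq ?_
        simp only [hX]; ring
    · refine le_trans (le_of_eq ?_) (le_of_le_of_eq
        (mul_le_mul_of_nonneg_left (hl (K0 := √|C2|) (.inl rfl)) (Nat.cast_nonneg (α := ℝ) n)) ?_)
      · ring
      · simp only [hX]; ring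

/-- The bound of a row of the error beyond the chaos. -/
noncomputable def rowG (v : ℝ) (i : Fin (m + 1)) (J : Mat (m + 1)) (u : Vec (m + 1)) : ℝ :=
  4 * ∑ a, rV i J u a ^ 2 + 4 * ∑ a, qV v i J u a ^ 2 +
    4 * v ^ 2 * ∑ a, del i (fun J u => ∑ c, cm2 J u a c) J u ^ 2 + 4 * v ^ 2 * brkI i J u ^ 2 +
    48 * v ^ 2 * (sq1 (del i vv J u) + sq1 (del i mg J u) * brkI i J u ^ 2 +
      sq1 (del i mg J u) * sq2 (del i cm2 J u))

lemma row_le {J : Mat (m + 1)} (hJ : IsCoupling J) (u : Vec (m + 1)) (i : Fin (m + 1)) (b : ℝ)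
    (n : ℕ) : ∑ j, (resid b n J u i j + chaosPart b n J u i j) ^ 2 ≤ rowG (b ^ 2 / n) i J u := by
  set v := b ^ 2 / (n:ℝ) with hv
  set d := del i mg J u with hd'
  have hm : mg J u i ^ 2 ≤ 1 := (sq_le_one_iff_abs_le_one _).2 (abs_mg_le J u i)
  have hw : vw J u i ^ 2 ≤ 1 := pow_le_one₀ (vw_pos J u i).le (vw_le_one J u i)
  have hvi : vv J u i ^ 2 ≤ brkI i J u ^ 2 := (vv_le_brk hJ u i).trans_eq (by rw [brk_eq hJ])
  have hself : (resid b n J u i i + chaosPart b n J u i i) ^ 2 ≤ 4 * v ^ 2 * brkI i J u ^ 2 := by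
    rw [resid_self hJ, chaosPart, chaosRow, Fin.insertNth_apply_same, mul_zero, add_zero, ← hv,
      neg_sq, mul_pow, mul_pow, mul_pow]
    have := mul_le_mul hm hvi (sq_nonneg _) zero_le_one
    nlinarith [mul_le_mul_of_nonneg_left this (by positivity : 0 ≤ 4 * v ^ 2)]
  have hrest : ∀ a, (resid b n J u i (i.succAbove a) + chaosPart b n J u i (i.succAbove a)) ^ 2 ≤
      4 * rV i J u a ^ 2 + 4 * qV v i J u a ^ 2 +
        4 * v ^ 2 * del i (fun J u => ∑ c, cm2 J u a c) J u ^ 2 +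
        48 * v ^ 2 * (del i vv J u a ^ 2 + d a ^ 2 * brkI i J u ^ 2 +
          (∑ c, del i cm2 J u a c * d c) ^ 2) := fun a => by
    have e1 : dC1 i J u a = del i (fun J u => ∑ c, cm2 J u a c) J u := by
      simp only [dC1, del, Pi.smul_apply, Pi.sub_apply, smul_eq_mul, ← sum_sub_distrib, mul_sum]
    rw [resid_rest hJ, chaosPart, ← hv, e1]
    have e2 : vv J u (i.succAbove a) - bar i vv J u a = mg J u i * del i vv J u a +
        d a * vv J u i - vw J u i * ∑ c, del i cm2 J u a c * d c := by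
      rw [vv_rest hJ]; ring
    rw [e2]
    set S := ∑ c, del i cm2 J u a c * d c
    set X := mg J u i * del i vv J u a + d a * vv J u i - vw J u i * S
    set D1 := del i (fun J u => ∑ c, cm2 J u a c) J u
    have e3 : rV i J u a - mg J u i * gV v i J u a - v * mg J u i * D1 -
        2 * v * mg J u i * X + mg J u i * chaosRow v J u i (i.succAbove a) =
        rV i J u a + (-(mg J u i) * qV v i J u a) + (-(v * mg J u i) * D1) +
          (-(2 * v * mg J u i) * X) := by rw [qV]; ring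
    rw [e3]
    have h4 : ∀ x y z w : ℝ, (x + y + z + w) ^ 2 ≤ 4 * (x ^ 2 + y ^ 2 + z ^ 2 + w ^ 2) :=
      fun x y z w => by
        nlinarith [sq_nonneg (x - y), sq_nonneg (x - z), sq_nonneg (x - w), sq_nonneg (y - z),
          sq_nonneg (y - w), sq_nonneg (z - w)]
    refine (h4 _ _ _ _).trans ?_
    have hX : X ^ 2 ≤ 3 * (del i vv J u a ^ 2 + d a ^ 2 * brkI i J u ^ 2 + S ^ 2) := by
      have h3 : ∀ x y z : ℝ, (x + y - z) ^ 2 ≤ 3 * (x ^ 2 + y ^ 2 + z ^ 2) := fun x y z => by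
        nlinarith [sq_nonneg (x - y), sq_nonneg (x + z), sq_nonneg (y + z)]
      refine (h3 _ _ _).trans ?_
      simp only [mul_pow]
      gcongr
      · exact mul_le_of_le_one_left (sq_nonneg _) hm
      · exact mul_le_of_le_one_left (sq_nonneg _) hw
    simp only [neg_mul, neg_sq, mul_pow]
    have i1 := mul_le_of_le_one_left (sq_nonneg (qV v i J u a)) hm
    have i2 := mul_le_mul_of_nonneg_left (mul_le_of_le_one_left (sq_nonneg D1) hm) (sq_nonneg v)
    have i3 := mul_le_mul_of_nonneg_left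
      ((mul_le_of_le_one_left (sq_nonneg X) hm).trans hX) (sq_nonneg v)
    linarith
  rw [Fin.sum_univ_succAbove _ i]
  refine (add_le_add hself (sum_le_sum fun a _ => hrest a)).trans ?_
  simp only [sum_add_distrib, ← mul_sum, ← sum_mul]
  have hS : ∑ a, (∑ c, del i cm2 J u a c * d c) ^ 2 ≤ sq1 d * sq2 (del i cm2 J u) := by
    rw [sq2, mul_comm (sq1 d), sum_mul]
    exact sum_le_sum fun a _ => sum_mul_sq_le_sq_mul_sq _ _ _
  have := mul_le_mul_of_nonneg_left hS (by positivity : 0 ≤ 48 * v ^ 2)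
  simp only [rowG, sq1] at this ⊢
  linarith

lemma ts_rowG (v τ : ℝ) (i : Fin (m + 1)) : TS v τ (rowG v i) := by
  have h1 : TS v τ fun J u => ∑ a, rV i J u a ^ 2 := Tame.sum fun a _ => (ts_rV v τ i a).pow 2
  have h2 : TS v τ fun J u => ∑ a, qV v i J u a ^ 2 := Tame.sum fun a _ => (ts_qV v τ i a).pow 2
  have b3 : Bd fun J u => 4 * v ^ 2 * ∑ a, del i (fun J u => ∑ c, cm2 J u a c) J u ^ 2 +
      4 * v ^ 2 * brkI i J u ^ 2 + 48 * v ^ 2 * (sq1 (del i vv J u) +
        sq1 (del i mg J u) * brkI i J u ^ 2 + sq1 (del i mg J u) * sq2 (del i cm2 J u)) :=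
    (((Bd.sum fun a => ((Bd.sum fun c => bd_cm2 a c).delI i).pow 2).const_mul _).add
      (((bd_brkI i).pow 2).const_mul _)).add
      ((((bd_delV i).add ((bd_d i).mul ((bd_brkI i).pow 2))).add
        ((bd_d i).mul (bd_delC i))).const_mul _)
  have h := ((Tame.const 4).mul h1).add (((Tame.const 4).mul h2).add (TS.of_bd b3 v τ))
  simpa only [TS, rowG, add_assoc] using! h

/-- The small terms at a row. -/
lemma small_terms (hG : GrowSpec b) (hC : CrudeSpec b) (hO : CenterSpec b) (hS : SliceSpec b)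
    (Tm : ℝ) :
    ∃ C : ℝ, 0 ≤ C ∧ ∀ n m : ℕ, ∀ τ : ℝ, 0 ≤ τ → τ ≤ Tm → m + 1 ≤ n → ∀ i : Fin (m + 1),
      pEv b n (m + 1) τ (fun J u => brkI i J u ^ 2) ≤ C * √(n:ℝ) ∧
      pEv b n (m + 1) τ (fun J u => sq1 (del i mg J u) * brkI i J u ^ 2) ≤ C * √(n:ℝ) ∧
      pEv b n (m + 1) τ (fun J u => sq1 (del i mg J u) * sq2 (del i cm2 J u)) ≤ C * √(n:ℝ) := by
  obtain ⟨C2, h2⟩ := hS 2 Tm
  obtain ⟨C3, h3⟩ := hS 3 Tm
  obtain ⟨S1, hs1⟩ := delS_pow hG hC hO (p := 1) le_rfl
  obtain ⟨S2, hs2⟩ := delS_pow hG hC hO (p := 2) one_le_two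
  obtain ⟨Cd, hd⟩ := delC_pow hG hC (p := 2) one_le_two
  refine ⟨2 * |S1| + 4 * (1 + |C2|) + (2 * (√|C2| * √|S2|) + 8 * (1 + |C3|)) + √|C2| * √|Cd|,
    by positivity, fun n m τ hτ hT hmn i => ?_⟩
  have hn : (1:ℝ) ≤ n := Nat.one_le_cast.2 (by omega)
  have hn1 : 1 ≤ √(n:ℝ) := one_le_sqrt.2 hn
  have s2 : pEv b n (m + 1) τ (fun J u => sq1 (del i mg J u) ^ 2) ≤ |C2| :=
    ((h2 n m τ hτ hT hmn i).1).trans (le_abs_self _)
  have s3 : pEv b n (m + 1) τ (fun J u => sq1 (del i mg J u) ^ 3) ≤ |C3| :=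
    ((h3 n m τ hτ hT hmn i).1).trans (le_abs_self _)
  have sA : pEv b n (m + 1) τ (fun J u => del i (fun J u => sq1 (mg J u) / 2) J u ^ 2) ≤
      |S1| * √(n:ℝ) := by
    have := hs1 n m τ hτ hmn i
    simp only [mul_one, pow_one] at this
    exact this.trans (mul_le_mul_of_nonneg_right (le_abs_self _) (sqrt_nonneg _))
  have k1 := brk_step (b := b) (n := n) (τ := τ) (h := 1) one_pos i sA s2
  have c1 : 2 * |S1| * √(n:ℝ) + 4 * (1 + |C2|) ≤ (2 * |S1| + 4 * (1 + |C2|)) * √(n:ℝ) := by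
    rw [add_mul]; exact add_le_add le_rfl (le_mul_of_one_le_right (by positivity) hn1)
  have k3 : pEv b n (m + 1) τ (fun J u => sq1 (del i mg J u) * sq2 (del i cm2 J u)) ≤
      √|C2| * √|Cd| * √(n:ℝ) := by
    refine (pEv_mul_le_of (bd_d i) (bd_delC i) s2 (B := |Cd| * (√(n:ℝ)) ^ 2)
      ((hd n m τ hτ hmn i).trans (mul_le_mul_of_nonneg_right (le_abs_self _) (sq_nonneg _)))).trans ?_
    rw [sqrt_mul (abs_nonneg _), sqrt_sq (sqrt_nonneg _), mul_assoc]
  have sS : pEv b n (m + 1) τ (fun J u => sq1 (del i mg J u) *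
      del i (fun J u => sq1 (mg J u) / 2) J u ^ 2) ≤ √|C2| * √|S2| * √(n:ℝ) := by
    refine (pEv_mul_le_of (bd_d i) ((bd_delS i).pow 2) s2 (B := |S2| * (√(n:ℝ)) ^ 2) ?_).trans ?_
    · simp only [← pow_mul]
      exact (hs2 n m τ hτ hmn i).trans (mul_le_mul_of_nonneg_right (le_abs_self _) (sq_nonneg _))
    · rw [sqrt_mul (abs_nonneg _), sqrt_sq (sqrt_nonneg _), mul_assoc]
  have k2 : pEv b n (m + 1) τ (fun J u => sq1 (del i mg J u) * brkI i J u ^ 2) ≤
      (2 * (√|C2| * √|S2|) + 8 * (1 + |C3|)) * √(n:ℝ) := by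
    have b1 := ((bd_d i).mul ((bd_delS i).pow 2)).const_mul 2
    have b2 := ((Bd.const 1).add ((bd_d i).pow 3)).const_mul 8
    have e := pEv_mono (b := b) (n := n) (τ := τ) ((bd_d i).mul ((bd_brkI i).pow 2))
      (b1.add b2) fun J u hJ => ?_
    · rw [pEv_add b1 b2, pEv_const_mul, pEv_const_mul, pEv_add (Bd.const 1) ((bd_d i).pow 3),
        pEv_const] at e
      refine e.trans ?_
      have : 8 * (1 + pEv b n (m + 1) τ fun J u => sq1 (del i mg J u) ^ 3) ≤
          8 * (1 + |C3|) * √(n:ℝ) :=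
        (mul_le_mul_of_nonneg_left (add_le_add le_rfl s3) (by norm_num)).trans
          (le_mul_of_one_le_right (by positivity) hn1)
      linarith
    · set x := sq1 (del i mg J u) with hx
      have hx0 : 0 ≤ x := sum_nonneg fun a _ => sq_nonneg _
      have := brk_sq_le hJ u i (h := 1) one_pos
      rw [brk_eq hJ, ← hx, inv_one] at this
      nlinarith [mul_le_mul_of_nonneg_left this hx0, mul_nonneg hx0 (sq_nonneg (x - 1)),
        mul_nonneg (add_nonneg hx0 zero_le_one) (sq_nonneg (x - 1))]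
  refine ⟨?_, k2.trans ?_, k3.trans ?_⟩
  · refine k1.trans ?_
    rw [inv_one]
    refine le_trans (le_of_eq (by ring)) (c1.trans ?_)
    refine mul_le_mul_of_nonneg_right ?_ (sqrt_nonneg _)
    linarith [show 0 ≤ 2 * (√|C2| * √|S2|) + 8 * (1 + |C3|) by positivity,
      show 0 ≤ √|C2| * √|Cd| by positivity]
  · refine mul_le_mul_of_nonneg_right ?_ (sqrt_nonneg _)
    linarith [show 0 ≤ 2 * |S1| + 4 * (1 + |C2|) by positivity,
      show 0 ≤ √|C2| * √|Cd| by positivity]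
  · refine mul_le_mul_of_nonneg_right ?_ (sqrt_nonneg _)
    linarith [show 0 ≤ 2 * |S1| + 4 * (1 + |C2|) by positivity,
      show 0 ≤ 2 * (√|C2| * √|S2|) + 8 * (1 + |C3|) by positivity]

/-- The error of linear response minus the exact chaos, given the size of the shifted inputs. -/
theorem sumR_le (hG : GrowSpec b) (hC : CrudeSpec b) (hO : CenterSpec b) (hS : SliceSpec b)
    (Tm : ℝ) :
    ∃ C : ℝ, ∀ n m : ℕ, ∀ τ P : ℝ, 0 ≤ τ → τ ≤ Tm → m + 1 ≤ n → Inputs b n m τ P →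
      pEv b n (m + 1) τ
          (fun J u => sq2 fun i j => resid b n J u i j + chaosPart b n J u i j) ≤
        C * (√(n:ℝ) / n + P / (n:ℝ) ^ 2) := by
  obtain ⟨K, hK0, hK⟩ := fixed_of_crude hG hC
  obtain ⟨Cs, hCs0, hCs⟩ := small_terms hG hC hO hS Tm
  set β := b ^ 2 with hβ
  refine ⟨4 * (16 * β ^ 4 * K + 2 * β ^ 5 * K + 24 * β ^ 3) + 12 * β ^ 3 +
    52 * (β ^ 4 * K + β ^ 3) + 100 * β ^ 2 * Cs, fun n m τ P hτ hT hmn hP => ?_⟩
  have hn : 0 < n := by omega
  have hn0 : (0:ℝ) < n := Nat.cast_pos.2 hn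
  set v := b ^ 2 / (n:ℝ) with hv
  have hv0 : 0 ≤ v := by positivity
  have hmn' : m ≤ n := by omega
  have hF := hK n m τ hτ hn hmn'
  set X := (n:ℝ) ^ 2 * √n with hX
  have b4 : Bd fun (J : Mat m) u => sq4 (cm4 J u) :=
    Bd.sum fun a => Bd.sum fun c => Bd.sum fun d => Bd.sum fun e => (bd_cm4 a c d e).pow 2
  have bgv : Bd fun (J : Mat m) u => sq2 (gradV J u) :=
    Bd.sum fun a => Bd.sum fun c => (bd_gradV a c).pow 2
  have bT1 : Bd fun (J : Mat m) u => sq2 (app (cm3 J u) fun _ => 1) :=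
    Bd.sum fun a => Bd.sum fun c => (Bd.sum fun k => (Bd.const 1).mul (bd_cm3 k a c)).pow 2
  have hP0 : 0 ≤ P := le_trans (integral_nonneg fun g => integral_nonneg fun r =>
    sum_nonneg fun a _ => sum_nonneg fun c _ => sq_nonneg _) ((hP 0 (by norm_num)).2.1)
  have hone : ∀ i : Fin (m + 1), pEv b n (m + 1) τ (rowG v i) ≤
      4 * (v ^ 4 * (2 * (K * X)) + 4 * v ^ 4 * (2 * (K * X)) + v ^ 5 * (2 * (K * (n * X))) +
        2 * v ^ 4 * (K * X) + 2 * v ^ 4 * (2 * (K * X)) + 8 * v ^ 3 * P + 16 * v ^ 3 * P) +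
      4 * (v ^ 3 / 2 * (2 * P) + 2 * v ^ 3 * P) +
      4 * v ^ 2 * (v ^ 2 * (K * X) + v * P) + 4 * v ^ 2 * (Cs * √n) +
      48 * v ^ 2 * (v ^ 2 * (K * X) + v * P + Cs * √n + Cs * √n) := by
    intro i
    have t1 : TS v τ fun J u => ∑ a, rV i J u a ^ 2 := Tame.sum fun a _ => (ts_rV v τ i a).pow 2
    have t2 : TS v τ fun J u => ∑ a, qV v i J u a ^ 2 := Tame.sum fun a _ => (ts_qV v τ i a).pow 2
    have p1 := (Bd.sum (s := (univ : Finset (Fin m))) fun a =>
      ((Bd.sum (s := (univ : Finset (Fin m))) fun c => bd_cm2 (m := m) a c).delI i).pow 2)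
    have p3 := ((bd_delV i).add ((bd_d i).mul ((bd_brkI i).pow 2))).add ((bd_d i).mul (bd_delC i))
    have hb3 := ((p1.const_mul (4 * v ^ 2)).add (((bd_brkI i).pow 2).const_mul (4 * v ^ 2))).add
      (p3.const_mul (48 * v ^ 2))
    have e : pEv b n (m + 1) τ (rowG v i) =
        4 * pEv b n (m + 1) τ (fun J u => ∑ a, rV i J u a ^ 2) +
        4 * pEv b n (m + 1) τ (fun J u => ∑ a, qV v i J u a ^ 2) +
        4 * v ^ 2 * pEv b n (m + 1) τ
          (fun J u => ∑ a, del i (fun J u => ∑ c, cm2 J u a c) J u ^ 2) +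
        4 * v ^ 2 * pEv b n (m + 1) τ (fun J u => brkI i J u ^ 2) +
        48 * v ^ 2 * (pEv b n (m + 1) τ (fun J u => sq1 (del i vv J u)) +
          pEv b n (m + 1) τ (fun J u => sq1 (del i mg J u) * brkI i J u ^ 2) +
          pEv b n (m + 1) τ (fun J u => sq1 (del i mg J u) * sq2 (del i cm2 J u))) := by
      have i1 := t1.integrable.const_mul 4
      have i2 := t2.integrable.const_mul 4
      have i3 := hb3.integrable v τ
      rw [← pEv_add (bd_delV i) ((bd_d i).mul ((bd_brkI i).pow 2)),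
        ← pEv_add ((bd_delV i).add ((bd_d i).mul ((bd_brkI i).pow 2))) ((bd_d i).mul (bd_delC i)),
        ← pEv_const_mul (4 * v ^ 2), ← pEv_const_mul (4 * v ^ 2), ← pEv_const_mul (48 * v ^ 2),
        add_assoc (4 * pEv b n (m + 1) τ _ + 4 * pEv b n (m + 1) τ _),
        ← pEv_add (p1.const_mul _) (((bd_brkI i).pow 2).const_mul _), add_assoc,
        ← pEv_add ((p1.const_mul _).add (((bd_brkI i).pow 2).const_mul _)) (p3.const_mul _)]
      simp only [pEv, ← hv, ← integral_const_mul]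
      have i12 := i1.add i2
      rw [← integral_add i1 i2]
      refine Eq.trans (integral_congr_ae (ae_of_all _ fun g => ?_)) (integral_add i12 i3)
      simp only [rowG, Pi.add_apply]
      ring
    rw [e]
    obtain ⟨q1, q2, q3⟩ := hCs n m τ hτ hT hmn i
    refine add_le_add (add_le_add (add_le_add (add_le_add (mul_le_mul_of_nonneg_left ?_
      (by norm_num)) (mul_le_mul_of_nonneg_left ?_ (by norm_num)))
      (mul_le_mul_of_nonneg_left ?_ (by positivity))) (mul_le_mul_of_nonneg_left q1 (by positivity)))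
      (mul_le_mul_of_nonneg_left (add_le_add (add_le_add ?_ q2) q3) (by positivity))
    · have i11 := (integrable_A2 (b := b) (n := n) (τ := τ) (bd_o11 (m := m))).const_mul (v ^ 4)
      have iGV := (integrable_A2 (b := b) (n := n) (τ := τ) (bd_oGV (m := m))).const_mul (4 * v ^ 4)
      have i411 := (integrable_A2 (b := b) (n := n) (τ := τ) (bd_o411 (m := m))).const_mul (v ^ 5)
      have i41 := (integrable_A1 (b := b) (n := n) (τ := τ) (bd_o41 (m := m))).const_mul (2 * v ^ 4)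
      have i41' := (integrable_A2 (b := b) (n := n) (τ := τ) (bd_o41' (m := m))).const_mul (2 * v ^ 4)
      have i4 := (integrable_A1 (b := b) (n := n) (τ := τ) b4).const_mul (8 * v ^ 3)
      have ig := (integrable_A1 (b := b) (n := n) (τ := τ) bgv).const_mul (16 * v ^ 3)
      refine (pEv_row_le t1 (fun J u => sum_nonneg fun a _ => sq_nonneg _) i
        (f := fun g r => ∑ a, rF v (plJ v g) (plU τ g) a r ^ 2)
        (fun g r t => sum_congr rfl fun a _ => by rw [← hv, rV_join])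
        ((((((i11.add iGV).add i411).add i41).add i41').add i4).add ig)
        fun g => rF_le hv0 _ _).trans ?_
      simp only [integral_add' (((((i11.add iGV).add i411).add i41).add i41').add i4) ig,
        integral_add' ((((i11.add iGV).add i411).add i41).add i41') i4,
        integral_add' (((i11.add iGV).add i411).add i41) i41',
        integral_add' ((i11.add iGV).add i411) i41, integral_add' (i11.add iGV) i411,
        integral_add' i11 iGV, integral_const_mul]
      gcongr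
      · exact A2_le bd_o11 fun s hs => (hF s hs).1
      · exact A2_le bd_oGV fun s hs => (hF s hs).2.1
      · exact A2_le bd_o411 fun s hs => ((hF s hs).2.2.2.2).trans_eq (by simp only [hX]; ring)
      · exact A1_le bd_o41 fun s hs => (hF s hs).2.2.1
      · exact A2_le bd_o41' fun s hs => (hF s hs).2.2.2.1
      · exact A1_le b4 fun s hs => (hP s hs).1
      · exact A1_le bgv fun s hs => (hP s hs).2.1
    · have iS := (integrable_A2 (b := b) (n := n) (τ := τ) bT1).const_mul (v ^ 3 / 2)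
      have i4 := (integrable_A1 (b := b) (n := n) (τ := τ) b4).const_mul (2 * v ^ 3)
      refine (pEv_row_le t2 (fun J u => sum_nonneg fun a _ => sq_nonneg _) i
        (f := fun g r => ∑ a, qF v (plJ v g) (plU τ g) a r ^ 2)
        (fun g r t => sum_congr rfl fun a _ => by rw [← hv, qV_join])
        (iS.add i4) fun g => qF_le hv0 _ _).trans ?_
      rw [integral_add' iS i4, integral_const_mul, integral_const_mul]
      gcongr
      · exact A2_le bT1 fun s hs => (hP s hs).2.2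
      · exact A1_le b4 fun s hs => (hP s hs).1
    · refine delEv_le (D := fun a k J u => ∑ c, cm3 J u a c k) (fun a => Bd.sum fun c => bd_cm2 a c)
        (fun a k => Bd.sum fun c => bd_cm3 a c k)
        (lineDer_sum (f := fun (q : Fin m × Fin m) J u => cm2 J u q.1 q.2)
          (D := fun q k J u => cm3 J u q.1 q.2 k)
          fun q G u c t => hasDerivAt_cm2_line G u c _ _ t) i
        (fun s hs => le_of_eq_of_le ?_ (hF s hs).1) fun s hs => le_of_eq_of_le ?_ (hP s hs).2.2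
      · congr 1
        funext J u
        simp only [tot, o11, t11]
        exact sum_congr rfl fun a _ => by rw [sum_comm]
      · congr 1
        funext J u
        simp only [sq2, app, one_mul]
        refine sum_congr rfl fun a _ => sum_congr rfl fun k _ => ?_
        congr 1
        exact sum_congr rfl fun c _ => by rw [cm3_swap12]
    · rw [show (fun (J : Mat (m + 1)) (u : Vec (m + 1)) => sq1 (del i vv J u)) = fun J u =>
          ∑ a, del i (fun J u => vv J u a) J u ^ 2 from by funext J u; simp [sq1, del]]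
      exact delEv_le (fun a => bd_vv a) (fun a k => bd_gradV a k)
        (fun a G u c t => hasDerivAt_vv_line G u c a t) i (fun s hs => (hF s hs).2.1)
        fun s hs => (hP s hs).2.1
  have htot : pEv b n (m + 1) τ
      (fun J u => sq2 fun i j => resid b n J u i j + chaosPart b n J u i j) ≤
      ∑ i : Fin (m + 1), pEv b n (m + 1) τ (rowG v i) := by
    simp only [pEv, ← hv]
    rw [← integral_finsetSum _ fun i _ => (ts_rowG v τ i).integrable]
    refine integral_mono_of_nonneg (ae_of_all _ fun g => sum_nonneg fun i _ => sum_nonneg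
      fun j _ => sq_nonneg _) (integrable_finsetSum _ fun i _ => (ts_rowG v τ i).integrable)
      (ae_of_all _ fun g => sum_le_sum fun i _ => row_le (isCoupling_plJ v g) _ i b n)
  refine htot.trans ((sum_le_sum fun i _ => hone i).trans ?_)
  rw [sum_const, card_univ, Fintype.card_fin, nsmul_eq_mul]
  refine (mul_le_mul_of_nonneg_right (Nat.cast_le.2 hmn) (by positivity)).trans ?_
  have hβ0 : 0 ≤ β := sq_nonneg b
  set A := √(n:ℝ) / n
  set B := P / (n:ℝ) ^ 2
  have hA : 0 ≤ A := by positivity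
  have hB : 0 ≤ B := by positivity
  have hid : (n:ℝ) * (4 * (v ^ 4 * (2 * (K * X)) + 4 * v ^ 4 * (2 * (K * X)) +
      v ^ 5 * (2 * (K * (n * X))) + 2 * v ^ 4 * (K * X) + 2 * v ^ 4 * (2 * (K * X)) +
      8 * v ^ 3 * P + 16 * v ^ 3 * P) + 4 * (v ^ 3 / 2 * (2 * P) + 2 * v ^ 3 * P) +
      4 * v ^ 2 * (v ^ 2 * (K * X) + v * P) + 4 * v ^ 2 * (Cs * √n) +
      48 * v ^ 2 * (v ^ 2 * (K * X) + v * P + Cs * √n + Cs * √n)) =
      (4 * (16 * β ^ 4 * K + 2 * β ^ 5 * K) + 52 * β ^ 4 * K + 100 * β ^ 2 * Cs) * A +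
        (96 * β ^ 3 + 12 * β ^ 3 + 52 * β ^ 3) * B := by
    simp only [hv, hX, A, B, hβ]
    field_simp
    ring
  rw [hid]
  refine le_of_le_of_eq
    (add_le_add (mul_le_mul_of_nonneg_right ?_ hA) (mul_le_mul_of_nonneg_right ?_ hB))
    (mul_add _ _ _).symm
  · nlinarith [pow_nonneg hβ0 3]
  · nlinarith [mul_nonneg (pow_nonneg hβ0 4) hK0, mul_nonneg (pow_nonneg hβ0 5) hK0,
      mul_nonneg (pow_nonneg hβ0 2) hCs0]

end Vale.Agent.P150.Weak.Resp
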